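import Vale.Agent.P027.R4.H297.Nq

set_option linter.all false

/-! Adding a point of the kernel of reduction changes an integral first coordinate only a
little. -/

namespace Vale.Agent.P027.R4.H297

open Vale.Agent.P027.R4.H849

variable {q : ℕ} [hq : Fact q.Prime]

lemma norm_add_le_of {a b : ℚ_[q]} {c : ℝ} (ha : ‖a‖ ≤ c) (hb : ‖b‖ ≤ c) : ‖a + b‖ ≤ c :=
  (nadd_le a b).trans (max_le ha hb)

lemma norm_sub_le_of {a b : ℚ_[q]} {c : ℝ} (ha : ‖a‖ ≤ c) (hb : ‖b‖ ≤ c) : ‖a - b‖ ≤ c :=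
  (nsub_le a b).trans (max_le ha hb)

/-- the arithmetic of the congruence lemma -/
lemma cg_aux {a b s d : ℚ_[q]} (ha : ‖a‖ ≤ 1) (hb : 1 < ‖b‖)
    (h1 : (s + d) * (a - b) ^ 2 = 2 * (a * b - 2) * (a + b))
    (h2 : s * d * (a - b) ^ 2 = (a * b + 2) ^ 2) : ‖s‖ ≤ 1 ∧ ‖s - a‖ ^ 2 * ‖b‖ ≤ 1 := by
  have hb0 : 0 < ‖b‖ := by linarith only [hb]
  have hab : ‖a - b‖ = ‖b‖ := by
    have e : a - b = -b + a := by ring
    rw [e, nadd_left (by rw [norm_neg]; linarith only [ha, hb]), norm_neg]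
  have ha0 := norm_nonneg a
  have hD0 : (a - b) ^ 2 ≠ 0 := by
    apply pow_ne_zero
    intro h0
    rw [h0, norm_zero] at hab
    linarith only [hab, hb0]
  have hDn : ‖(a - b) ^ 2‖ = ‖b‖ ^ 2 := by rw [norm_pow, hab]
  -- powers of `a` are integral
  have hap : ∀ n : ℕ, ‖a ^ n‖ ≤ 1 := fun n => by rw [norm_pow]; exact pow_le_one₀ ha0 ha
  have hint : ∀ z : ℤ, ∀ n : ℕ, ‖(z : ℚ_[q]) * a ^ n‖ ≤ ‖b‖ := by
    intro z n
    rw [norm_mul]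
    calc _ ≤ 1 * 1 := mul_le_mul (nint z) (hap n) (norm_nonneg _) (by norm_num)
      _ ≤ _ := by linarith only [hb]
  have hintb : ∀ z : ℤ, ∀ n : ℕ, ‖(z : ℚ_[q]) * a ^ n * b‖ ≤ ‖b‖ := by
    intro z n
    rw [norm_mul, norm_mul]
    calc ‖(z : ℚ_[q])‖ * ‖a ^ n‖ * ‖b‖ ≤ (1 * 1) * ‖b‖ :=
          mul_le_mul_of_nonneg_right
            (mul_le_mul (nint z) (hap n) (norm_nonneg _) (by norm_num)) hb0.le
      _ = _ := by ring
  -- the sum and the product of the two coordinates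
  have e1 : (s + d - 2 * a) * (a - b) ^ 2 =
      ((6 : ℤ) : ℚ_[q]) * a ^ 2 * b + ((-4 : ℤ) : ℚ_[q]) * a ^ 0 * b +
        (((-4 : ℤ) : ℚ_[q]) * a ^ 1 + ((-2 : ℤ) : ℚ_[q]) * a ^ 3) := by
    push_cast
    linear_combination h1
  have e2 : (s * d - a ^ 2) * (a - b) ^ 2 =
      ((4 : ℤ) : ℚ_[q]) * a ^ 1 * b + ((2 : ℤ) : ℚ_[q]) * a ^ 3 * b +
        (((4 : ℤ) : ℚ_[q]) * a ^ 0 + ((-1 : ℤ) : ℚ_[q]) * a ^ 4) := by
    push_cast
    linear_combination h2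
  have m1 : ‖s + d - 2 * a‖ * ‖b‖ ≤ 1 := by
    have k : ‖(s + d - 2 * a) * (a - b) ^ 2‖ ≤ ‖b‖ := by
      rw [e1]
      exact norm_add_le_of (norm_add_le_of (hintb _ _) (hintb _ _))
        (norm_add_le_of (hint _ _) (hint _ _))
    rw [norm_mul, hDn] at k
    have k2 : (‖s + d - 2 * a‖ * ‖b‖) * ‖b‖ ≤ 1 * ‖b‖ := by
      calc _ = ‖s + d - 2 * a‖ * ‖b‖ ^ 2 := by ring
        _ ≤ _ := by rw [one_mul]; exact k
    exact le_of_mul_le_mul_right k2 hb0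
  have m2 : ‖s * d - a ^ 2‖ * ‖b‖ ≤ 1 := by
    have k : ‖(s * d - a ^ 2) * (a - b) ^ 2‖ ≤ ‖b‖ := by
      rw [e2]
      exact norm_add_le_of (norm_add_le_of (hintb _ _) (hintb _ _))
        (norm_add_le_of (hint _ _) (hint _ _))
    rw [norm_mul, hDn] at k
    have k2 : (‖s * d - a ^ 2‖ * ‖b‖) * ‖b‖ ≤ 1 * ‖b‖ := by
      calc _ = ‖s * d - a ^ 2‖ * ‖b‖ ^ 2 := by ring
        _ ≤ _ := by rw [one_mul]; exact k
    exact le_of_mul_le_mul_right k2 hb0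
  have small : ∀ t : ℚ_[q], ‖t‖ * ‖b‖ ≤ 1 → ‖t‖ ≤ 1 := by
    intro t ht
    by_contra hcon
    push Not at hcon
    nlinarith only [ht, hcon, hb]
  have i1 : ‖s + d‖ ≤ 1 := by
    have e : s + d = (s + d - 2 * a) + 2 * a := by ring
    rw [e]
    refine norm_add_le_of (small _ m1) ?_
    rw [norm_mul]
    calc _ ≤ 1 * 1 := mul_le_mul n2 ha ha0 (by norm_num)
      _ = _ := by norm_num
  have i2 : ‖s * d‖ ≤ 1 := by
    have e : s * d = (s * d - a ^ 2) + a ^ 2 := by ring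
    rw [e]
    exact norm_add_le_of (small _ m2) (hap 2)
  have hs : ‖s‖ ≤ 1 := by
    by_contra hcon
    push Not at hcon
    have e : s ^ 2 = (s + d) * s - s * d := by ring
    have k : ‖s ^ 2‖ ≤ ‖s‖ := by
      rw [e]
      refine norm_sub_le_of ?_ (i2.trans hcon.le)
      rw [norm_mul]
      calc _ ≤ 1 * ‖s‖ := mul_le_mul_of_nonneg_right i1 (norm_nonneg _)
        _ = _ := one_mul _
    rw [norm_pow] at k
    nlinarith only [k, hcon]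
  refine ⟨hs, ?_⟩
  have e : (s - a) ^ 2 = (s + d - 2 * a) * s - (s * d - a ^ 2) := by ring
  rw [← norm_pow, e, ← le_div_iff₀ hb0]
  rw [← le_div_iff₀ hb0] at m1 m2
  refine norm_sub_le_of ?_ m2
  rw [norm_mul]
  calc _ ≤ (1 / ‖b‖) * 1 := mul_le_mul m1 hs (norm_nonneg _) (by positivity)
    _ = _ := mul_one _

/-- adding a point of the kernel of reduction to an integral point -/
theorem cg [DecidableEq ℚ_[q]] {B : ℝ} (hB : 1 < B) {U W : (EF ℚ_[q]).Point} {a : ℚ_[q]}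
    (hU : HX U a) (ha : ‖a‖ ≤ 1) (hW : W ∈ EB B hB) :
    U + W ≠ 0 ∧ ∀ x', HX (U + W) x' → ‖x'‖ ≤ 1 ∧ ‖x' - a‖ ^ 2 * B ≤ 1 := by
  by_cases hW0 : W = 0
  · subst hW0
    rw [add_zero]
    refine ⟨hU.ne_zero, fun x' hx' => ?_⟩
    obtain rfl := hx'.unique hU
    refine ⟨ha, ?_⟩
    rw [sub_self, norm_zero]
    norm_num
  obtain ⟨b, hb⟩ := exists_HX hW0
  have hbB := hW b hb
  have hb1 : 1 < ‖b‖ := hB.trans_le hbB
  have hne : a ≠ b := by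
    rintro rfl
    linarith only [ha, hb1]
  obtain ⟨s, d, hs, -, h1, h2⟩ := HX_add_sub hU hb hne
  refine ⟨hs.ne_zero, fun x' hx' => ?_⟩
  obtain rfl := hx'.unique hs
  obtain ⟨k1, k2⟩ := cg_aux ha hb1 h1 h2
  exact ⟨k1, (mul_le_mul_of_nonneg_left hbB (sq_nonneg _)).trans k2⟩

/-- the congruence lemma -/
theorem cg_pow [DecidableEq ℚ_[q]] {k : ℕ} (hB : 1 < (q : ℝ) ^ (2 * k))
    {U W : (EF ℚ_[q]).Point} {a x' : ℚ_[q]} (hU : HX U a) (ha : ‖a‖ ≤ 1)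
    (hW : W ∈ EB ((q : ℝ) ^ (2 * k)) hB) (h' : HX (U + W) x') :
    ‖x' - a‖ ≤ ((q : ℝ) ^ k)⁻¹ := by
  have hq0 : (0 : ℝ) < q := by exact_mod_cast hq.out.pos
  have h := ((cg hB hU ha hW).2 x' h').2
  have hk : (0 : ℝ) < (q : ℝ) ^ k := by positivity
  have h1 : (‖x' - a‖ * (q : ℝ) ^ k) ^ 2 ≤ 1 := by
    calc _ = ‖x' - a‖ ^ 2 * (q : ℝ) ^ (2 * k) := by ring
      _ ≤ 1 := h
  have h2 : ‖x' - a‖ * (q : ℝ) ^ k ≤ 1 := by
    have h0 : 0 ≤ ‖x' - a‖ * (q : ℝ) ^ k := by positivity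
    nlinarith only [h1, h0]
  rwa [← one_div, le_div_iff₀ hk]

end Vale.Agent.P027.R4.H297
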