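import Mathlib
import Vale.Agent.P027.Bdl.B1

set_option linter.all false

/-! The coordinates of the odd multiples of the point `(-1, 1)` of `y^2 = x^3 - 2 x` are
computable. -/

namespace Vale.Agent.P027.R4.H297

open Vale.Agent.P345 Vale.Agent.P027 MvPolynomial

/-- difference of a pair -/
def dv (p : ℕ × ℕ) : ℤ := (p.1 : ℤ) - p.2

/-- integer functions that are differences of primitive recursive functions -/
def PZ {α : Type} [Primcodable α] (f : α → ℤ) : Prop :=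
  ∃ g : α → ℕ × ℕ, Primrec g ∧ ∀ a, f a = dv (g a)

variable {α : Type} [Primcodable α]

lemma PZ.of_pair {g : α → ℕ × ℕ} (hg : Primrec g) : PZ (fun a => dv (g a)) := ⟨g, hg, fun _ => rfl⟩

lemma PZ.const (n : ℕ) : PZ (fun _ : α => (n : ℤ)) :=
  ⟨fun _ => (n, 0), Primrec.const _, fun a => by simp [dv]⟩

lemma PZ.add {f g : α → ℤ} (hf : PZ f) (hg : PZ g) : PZ (fun a => f a + g a) := by
  obtain ⟨f', hf', ef⟩ := hf
  obtain ⟨g', hg', eg⟩ := hg
  refine ⟨fun a => ((f' a).1 + (g' a).1, (f' a).2 + (g' a).2), ?_, fun a => ?_⟩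
  · exact Primrec.pair
      (Primrec.nat_add.comp (Primrec.fst.comp hf') (Primrec.fst.comp hg'))
      (Primrec.nat_add.comp (Primrec.snd.comp hf') (Primrec.snd.comp hg'))
  · simp only [ef, eg, dv]; push_cast; ring

lemma PZ.neg {f : α → ℤ} (hf : PZ f) : PZ (fun a => -f a) := by
  obtain ⟨f', hf', ef⟩ := hf
  refine ⟨fun a => ((f' a).2, (f' a).1), ?_, fun a => ?_⟩
  · exact Primrec.pair (Primrec.snd.comp hf') (Primrec.fst.comp hf')
  · simp only [ef, dv]; ring

lemma PZ.sub {f g : α → ℤ} (hf : PZ f) (hg : PZ g) : PZ (fun a => f a - g a) := by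
  simpa only [sub_eq_add_neg] using hf.add hg.neg

lemma PZ.mul {f g : α → ℤ} (hf : PZ f) (hg : PZ g) : PZ (fun a => f a * g a) := by
  obtain ⟨f', hf', ef⟩ := hf
  obtain ⟨g', hg', eg⟩ := hg
  refine ⟨fun a => ((f' a).1 * (g' a).1 + (f' a).2 * (g' a).2,
    (f' a).1 * (g' a).2 + (f' a).2 * (g' a).1), ?_, fun a => ?_⟩
  · exact Primrec.pair
      (Primrec.nat_add.comp
        (Primrec.nat_mul.comp (Primrec.fst.comp hf') (Primrec.fst.comp hg'))
        (Primrec.nat_mul.comp (Primrec.snd.comp hf') (Primrec.snd.comp hg')))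
      (Primrec.nat_add.comp
        (Primrec.nat_mul.comp (Primrec.fst.comp hf') (Primrec.snd.comp hg'))
        (Primrec.nat_mul.comp (Primrec.snd.comp hf') (Primrec.fst.comp hg')))
  · simp only [ef, eg, dv]; push_cast; ring

lemma PZ.pow {f : α → ℤ} (hf : PZ f) (n : ℕ) : PZ (fun a => f a ^ n) := by
  induction n with
  | zero => simpa using (PZ.const 1 : PZ (fun _ : α => ((1 : ℕ) : ℤ)))
  | succ n ih => simpa only [pow_succ] using ih.mul hf

lemma PZ.lit (n : ℕ) [n.AtLeastTwo] : PZ (fun _ : α => (OfNat.ofNat n : ℤ)) := by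
  simpa using (PZ.const (α := α) (OfNat.ofNat n))

lemma PZ.primrec {f : α → ℤ} (hf : PZ f) : Primrec f := by
  obtain ⟨f', hf', ef⟩ := hf
  exact (K2.primrec_intsub.comp (Primrec.fst.comp hf') (Primrec.snd.comp hf')).of_eq
    (fun a => (ef a).symm)



/-- the sum of two points with different first coordinates -/
lemma add_pt_ne {x y x' y' : ℚ} (h : y ^ 2 = x ^ 3 - 2 * x) (h' : y' ^ 2 = x' ^ 3 - 2 * x')
    (hne : x ≠ x') {l X Y : ℚ} (hl : l = (y - y') / (x - x')) (hX : X = l ^ 2 - x - x')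
    (hY : Y = -(l * (X - x) + y)) : ∃ e, pt x y h + pt x' y' h' = pt X Y e := by
  have hadd := WeierstrassCurve.Affine.Point.add_of_X_ne
    (h₁ := (ec_nonsingular_iff x y).2 h) (h₂ := (ec_nonsingular_iff x' y').2 h') hne
  have hX' : EC.addX x x' (EC.slope x x' y y') = X := by
    rw [WeierstrassCurve.Affine.slope_of_X_ne hne, hX, hl]
    simp only [WeierstrassCurve.Affine.addX, EC]
    ring
  have hY' : EC.addY x x' y (EC.slope x x' y y') = Y := by
    rw [WeierstrassCurve.Affine.addY, WeierstrassCurve.Affine.negAddY, negY_ec, hX',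
      WeierstrassCurve.Affine.slope_of_X_ne hne, hY, hl]
  have hns := (ec_nonsingular_iff _ _).1 (WeierstrassCurve.Affine.nonsingular_add
      ((ec_nonsingular_iff x y).2 h) ((ec_nonsingular_iff x' y').2 h')
      fun hxy => hne hxy.left)
  have hP : pt x y h + pt x' y' h' = .some _ _ (WeierstrassCurve.Affine.nonsingular_add
      ((ec_nonsingular_iff x y).2 h) ((ec_nonsingular_iff x' y').2 h')
      fun hxy => hne hxy.left) := hadd
  refine ⟨by rw [← hX', ← hY']; exact hns, ?_⟩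
  rw [hP]
  unfold pt
  rw [WeierstrassCurve.Affine.Point.some.injEq]
  exact ⟨hX', hY'⟩

/-- the double of a point -/
lemma add_pt_self {x y : ℚ} (h : y ^ 2 = x ^ 3 - 2 * x) (hy : y ≠ 0) {l X Y : ℚ}
    (hl : l = (3 * x ^ 2 - 2) / (2 * y)) (hX : X = l ^ 2 - x - x)
    (hY : Y = -(l * (X - x) + y)) : ∃ e, pt x y h + pt x y h = pt X Y e := by
  have hne : y ≠ EC.negY x y := by
    rw [negY_ec]; intro h1; apply hy; linarith
  have hadd := WeierstrassCurve.Affine.Point.add_self_of_Y_ne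
    (h₁ := (ec_nonsingular_iff x y).2 h) hne
  have hslope : EC.slope x x y y = l := by
    rw [WeierstrassCurve.Affine.slope_of_Y_ne rfl hne, negY_ec, hl]
    simp only [EC]
    congr 1 <;> ring
  have hX' : EC.addX x x (EC.slope x x y y) = X := by
    rw [hslope, hX]
    simp only [WeierstrassCurve.Affine.addX, EC]
    ring
  have hY' : EC.addY x x y (EC.slope x x y y) = Y := by
    rw [WeierstrassCurve.Affine.addY, WeierstrassCurve.Affine.negAddY, negY_ec, hX', hslope, hY]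
  have hns := (ec_nonsingular_iff _ _).1 (WeierstrassCurve.Affine.nonsingular_add
      ((ec_nonsingular_iff x y).2 h) ((ec_nonsingular_iff x y).2 h) fun hxy => hne hxy.right)
  have hP : pt x y h + pt x y h = .some _ _ (WeierstrassCurve.Affine.nonsingular_add
      ((ec_nonsingular_iff x y).2 h) ((ec_nonsingular_iff x y).2 h) fun hxy => hne hxy.right) := hadd
  refine ⟨by rw [← hX', ← hY']; exact hns, ?_⟩
  rw [hP]
  unfold pt
  rw [WeierstrassCurve.Affine.Point.some.injEq]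
  exact ⟨hX', hY'⟩

lemma two_P0 : ∃ e, P0 + P0 = pt (9 / 4) (-21 / 8) e := by
  unfold P0
  exact add_pt_self _ one_ne_zero (l := 1 / 2) (by norm_num) (by norm_num) (by norm_num)

/-- homogeneous coordinates: the new first coordinate -/
def nX (X Y Z : ℤ) : ℤ := (8 * X - 18 * Z) *
  (4 * (8 * Y + 21 * Z) ^ 2 * Z - 4 * X * (8 * X - 18 * Z) ^ 2 - 9 * Z * (8 * X - 18 * Z) ^ 2)

/-- homogeneous coordinates: the new second coordinate -/
def nY (X Y Z : ℤ) : ℤ := -((8 * Y + 21 * Z) *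
  (4 * (8 * Y + 21 * Z) ^ 2 * Z - 8 * X * (8 * X - 18 * Z) ^ 2 - 9 * Z * (8 * X - 18 * Z) ^ 2) +
    4 * Y * (8 * X - 18 * Z) ^ 3)

/-- homogeneous coordinates: the new third coordinate -/
def nZ (X Z : ℤ) : ℤ := 4 * (8 * X - 18 * Z) ^ 3 * Z

lemma odd_neg {n : ℤ} (hn : Odd n) {x : ℚ} (h : HasX (n • P0) x) : x ≠ 9 / 4 := by
  obtain ⟨x', c, d, hf⟩ := HT.oddForm_exists hn
  have e := hf.eq
  rw [hf.hasX.unique h] at e
  intro hx
  have h1 : (0 : ℚ) ≤ (c : ℚ) ^ 2 / (d : ℚ) ^ 2 := by positivity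
  linarith

lemma step_pt {n : ℤ} (hn : Odd n) {X Y Z : ℤ} (hZ : Z ≠ 0) {e} (h : n • P0 = pt (X / Z) (Y / Z) e) :
    nZ X Z ≠ 0 ∧ ∃ e', (n + 2) • P0 = pt (nX X Y Z / nZ X Z) (nY X Y Z / nZ X Z) e' := by
  have hZ' : (Z : ℚ) ≠ 0 := by exact_mod_cast hZ
  have hx : (X : ℚ) / Z ≠ 9 / 4 := odd_neg hn ⟨_, e, h⟩
  have hD : (8 * (X : ℚ) - 18 * Z) ≠ 0 := by
    intro h0
    apply hx
    rw [div_eq_div_iff hZ' (by norm_num)]
    linarith
  have hD' : (8 * X - 18 * Z : ℤ) ≠ 0 := by exact_mod_cast hD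
  refine ⟨by unfold nZ; positivity, ?_⟩
  obtain ⟨e₂, h₂⟩ := two_P0
  have h3 : (n + 2) • P0 = pt (X / Z) (Y / Z) e + pt (9 / 4) (-21 / 8) e₂ := by
    rw [← h, ← h₂, add_zsmul, two_zsmul]
  rw [h3]
  have hd : (X : ℚ) / Z - 9 / 4 ≠ 0 := sub_ne_zero.2 hx
  have hl : (8 * (Y : ℚ) + 21 * Z) / (8 * X - 18 * Z) = (Y / Z - (-21 / 8)) / (X / Z - 9 / 4) := by
    rw [div_eq_div_iff hD hd]
    field_simp
    ring
  refine add_pt_ne e e₂ hx hl ?_ ?_
  · simp only [nX, nZ]; push_cast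
    generalize 8 * (X : ℚ) - 18 * Z = D at *
    generalize 8 * (Y : ℚ) + 21 * Z = N at *
    field_simp
    try ring
  · simp only [nX, nY, nZ]; push_cast
    generalize 8 * (X : ℚ) - 18 * Z = D at *
    generalize 8 * (Y : ℚ) + 21 * Z = N at *
    field_simp
    try ring



/-- the states of the recursion -/
abbrev St := (ℕ × ℕ) × (ℕ × ℕ) × (ℕ × ℕ)

/-- a computable sequence of homogeneous coordinates of the odd multiples -/
theorem exists_seq : ∃ f : ℕ → St, Primrec f ∧ ∀ n : ℕ, dv (f n).2.2 ≠ 0 ∧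
    ∃ e, (2 * (n : ℤ) + 1) • P0 = pt (dv (f n).1 / dv (f n).2.2) (dv (f n).2.1 / dv (f n).2.2) e := by
  have hX : PZ (fun s : St => dv s.1) := PZ.of_pair Primrec.fst
  have hY : PZ (fun s : St => dv s.2.1) := PZ.of_pair (Primrec.fst.comp Primrec.snd)
  have hZ : PZ (fun s : St => dv s.2.2) := PZ.of_pair (Primrec.snd.comp Primrec.snd)
  have hD : PZ (fun s : St => 8 * dv s.1 - 18 * dv s.2.2) :=
    ((PZ.lit 8).mul hX).sub ((PZ.lit 18).mul hZ)
  have hN : PZ (fun s : St => 8 * dv s.2.1 + 21 * dv s.2.2) :=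
    ((PZ.lit 8).mul hY).add ((PZ.lit 21).mul hZ)
  have h1 : PZ (fun s : St => nX (dv s.1) (dv s.2.1) (dv s.2.2)) := by
    unfold nX
    exact hD.mul (((((PZ.lit 4).mul (hN.pow 2)).mul hZ).sub (((PZ.lit 4).mul hX).mul
      (hD.pow 2))).sub (((PZ.lit 9).mul hZ).mul (hD.pow 2)))
  have h2 : PZ (fun s : St => nY (dv s.1) (dv s.2.1) (dv s.2.2)) := by
    unfold nY
    exact ((hN.mul (((((PZ.lit 4).mul (hN.pow 2)).mul hZ).sub (((PZ.lit 8).mul hX).mul
      (hD.pow 2))).sub (((PZ.lit 9).mul hZ).mul (hD.pow 2)))).add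
      (((PZ.lit 4).mul hY).mul (hD.pow 3))).neg
  have h3 : PZ (fun s : St => nZ (dv s.1) (dv s.2.2)) := by
    unfold nZ
    exact ((PZ.lit 4).mul (hD.pow 3)).mul hZ
  obtain ⟨gX, hgX, eX⟩ := h1
  obtain ⟨gY, hgY, eY⟩ := h2
  obtain ⟨gZ, hgZ, eZ⟩ := h3
  let step : St → St := fun s => (gX s, gY s, gZ s)
  have hstep : Primrec step := Primrec.pair hgX (Primrec.pair hgY hgZ)
  obtain ⟨F, hF⟩ : ∃ F : ℕ → St, F = fun n => step^[n] ((0, 1), (1, 0), (1, 0)) := ⟨_, rfl⟩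
  have hF0 : F 0 = ((0, 1), (1, 0), (1, 0)) := by rw [hF]; rfl
  have hFs : ∀ n, F (n + 1) = step (F n) := by
    intro n; rw [hF]; exact Function.iterate_succ_apply' _ _ _
  refine ⟨F, ?_, fun n => ?_⟩
  · rw [hF]
    exact Primrec.nat_iterate Primrec.id (Primrec.const _) (hstep.comp Primrec.snd)
  · induction n with
    | zero =>
      rw [hF0]
      refine ⟨by simp [dv], ?_⟩
      refine ⟨by simp [dv]; norm_num, ?_⟩
      simp only [dv, Nat.cast_zero, mul_zero, zero_add, one_smul]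
      unfold P0
      exact pt_congr (by norm_num) (by norm_num)
    | succ n ih =>
      obtain ⟨ih1, e, ih2⟩ := ih
      rw [hFs]
      obtain ⟨k1, e', k2⟩ := step_pt (n := 2 * (n : ℤ) + 1) ⟨n, rfl⟩ ih1 ih2
      have q1 : ∀ s, dv (step s).1 = nX (dv s.1) (dv s.2.1) (dv s.2.2) := fun s => (eX s).symm
      have q2 : ∀ s, dv (step s).2.1 = nY (dv s.1) (dv s.2.1) (dv s.2.2) := fun s => (eY s).symm
      have q3 : ∀ s, dv (step s).2.2 = nZ (dv s.1) (dv s.2.2) := fun s => (eZ s).symm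
      refine ⟨by rw [q3]; exact k1, ?_⟩
      have k3 : (2 * ((n + 1 : ℕ) : ℤ) + 1) = 2 * (n : ℤ) + 1 + 2 := by push_cast; ring
      rw [k3, k2, q1, q2, q3]
      exact ⟨_, rfl⟩

/-- the odd multiples of `P0` have computable coordinates -/
theorem exists_coord : ∃ f : ℕ → Fin 3 → ℤ, Computable f ∧ ∀ n : ℕ, f n 2 ≠ 0 ∧
    ∃ e, (2 * (n : ℤ) + 1) • P0 = pt (f n 0 / f n 2) (f n 1 / f n 2) e := by
  obtain ⟨f, hf, h⟩ := exists_seq
  refine ⟨fun n => ![dv (f n).1, dv (f n).2.1, dv (f n).2.2], ?_, fun n => h n⟩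
  have h1 : Primrec (fun n => dv (f n).1) := PZ.primrec (PZ.of_pair (Primrec.fst.comp hf))
  have h2 : Primrec (fun n => dv (f n).2.1) :=
    PZ.primrec (PZ.of_pair (Primrec.fst.comp (Primrec.snd.comp hf)))
  have h3 : Primrec (fun n => dv (f n).2.2) :=
    PZ.primrec (PZ.of_pair (Primrec.snd.comp (Primrec.snd.comp hf)))
  refine Primrec.to_comp (Primrec.fin_curry.2 ?_)
  have h4 : Primrec (fun q : ℕ × Fin 3 => if q.2 = 0 then dv (f q.1).1 else
      if q.2 = 1 then dv (f q.1).2.1 else dv (f q.1).2.2) := by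
    refine Primrec.ite (Primrec.eq.comp Primrec.snd (Primrec.const 0)) (h1.comp Primrec.fst) ?_
    exact Primrec.ite (Primrec.eq.comp Primrec.snd (Primrec.const 1)) (h2.comp Primrec.fst)
      (h3.comp Primrec.fst)
  refine h4.of_eq (fun q => ?_)
  obtain ⟨n, i⟩ := q
  fin_cases i <;> rfl

end Vale.Agent.P027.R4.H297
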