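import Vale.Agent.P027.R4.H788.Defs
import Vale.Agent.P027.R4.H297.Comp

set_option linter.all false

/-! Undecidability, by one reduction for all rings of the class. -/

namespace Vale.Agent.P027.D1

open MvPolynomial Vale.Agent.P345 Vale.Agent.P027 Vale.Agent.P027.HT

/-- output of row K -/
def RowK : Prop := ∃ (A : Set ℕ) (f : ℕ → Fin 3 → ℤ), REPred (fun a => a ∈ A) ∧
  ¬ REPred (fun a => a ∉ A) ∧ (∀ B : Set ℕ, REPred (fun n => n ∈ B) →
    ∃ g : ℕ → ℕ, Computable g ∧ ∀ n, (n ∈ B ↔ g n ∈ A)) ∧ Computable f ∧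
  ∀ B J : ℕ, ∃ (m r : ℕ) (G : MvPolynomial (Fin 3 ⊕ Fin m ⊕ Fin r) ℤ), ∀ R R' : Set ℚ,
    Cls B J R → (∀ z : ℤ, (z : ℚ) ∈ R') → ∀ a : ℕ,
    (a ∈ A ↔ ∃ (u : Fin m → ℚ) (y : Fin r → ℚ), (∀ i, u i ∈ R) ∧ (∀ j, y j ∈ R') ∧
      aeval (Sum.elim (fun i => (f a i : ℚ)) (Sum.elim u y)) G = 0)

/-- clearing the denominator of some of the arguments -/
theorem homog {τ : Type} (F : MvPolynomial ((Fin 1 × Fin 2) ⊕ τ) ℤ) :
    ∃ (G : MvPolynomial (Fin 3 ⊕ τ) ℤ) (d : ℕ), ∀ (t : Fin 3 → ℚ) (w : τ → ℚ), t 2 ≠ 0 →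
      aeval (Sum.elim t w) G = t 2 ^ d *
        aeval (Sum.elim (fun ij : Fin 1 × Fin 2 => t (Fin.castSucc ij.2) / t 2) w) F := by
  induction F using MvPolynomial.induction_on with
  | C a => exact ⟨C a, 0, fun t w ht => by simp⟩
  | add p q hp hq =>
    obtain ⟨G, d, hG⟩ := hp
    obtain ⟨G', d', hG'⟩ := hq
    refine ⟨X (Sum.inl 2) ^ d' * G + X (Sum.inl 2) ^ d * G', d + d', fun t w ht => ?_⟩
    simp only [map_add, map_mul, map_pow, aeval_X, Sum.elim_inl]
    rw [hG t w ht, hG' t w ht]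
    ring
  | mul_X p i hp =>
    obtain ⟨G, d, hG⟩ := hp
    rcases i with ⟨i, j⟩ | i
    · refine ⟨G * X (Sum.inl (Fin.castSucc j)), d + 1, fun t w ht => ?_⟩
      simp only [map_mul, aeval_X, Sum.elim_inl]
      rw [hG t w ht]
      field_simp
      ring
    · refine ⟨G * X (Sum.inr i), d, fun t w ht => ?_⟩
      simp only [map_mul, aeval_X, Sum.elim_inr]
      rw [hG t w ht]
      ring

theorem primrec_toNat : Primrec (fun z : ℤ => z.toNat) := by
  have h3 : Primrec (fun n : ℕ => if n % 2 = 0 then n / 2 else 0) := by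
    refine Primrec.ite (Primrec.eq.comp ?_ (Primrec.const 0)) ?_ (Primrec.const 0)
    · exact Primrec.nat_mod.comp Primrec.id (Primrec.const 2)
    · exact Primrec.nat_div.comp Primrec.id (Primrec.const 2)
  refine (h3.comp (Primrec.encode (α := ℤ))).of_eq (fun z => ?_)
  rcases z with n | n
  · have e : Encodable.encode (Int.ofNat n) = 2 * n := rfl
    rw [e, if_pos (by omega)]
    simp
  · have e : Encodable.encode (Int.negSucc n) = 2 * n + 1 := rfl
    rw [e, if_neg (by omega)]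
    rfl

/-- a universal recursively enumerable set -/
theorem universal_re : ∃ p : ℕ → Prop, REPred p ∧ ∀ q : ℕ → Prop, REPred q →
    ∃ g : ℕ → ℕ, Computable g ∧ ∀ n, (q n ↔ p (g n)) := by
  refine ⟨fun k => (Nat.Partrec.Code.eval (Denumerable.ofNat Nat.Partrec.Code k) 0).Dom, ?_, ?_⟩
  · have h1 : REPred fun c : Nat.Partrec.Code => (Nat.Partrec.Code.eval c 0).Dom :=
      ComputablePred.halting_problem_re 0
    exact N1.comp_re h1 (Computable.ofNat Nat.Partrec.Code)
  · intro q hq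
    have h1 : Partrec (fun k : ℕ => Part.assert (q k.unpair.1) fun _ => Part.some ()) :=
      Partrec.comp hq (Computable.fst.comp Computable.unpair)
    have h2 : Partrec (fun k : ℕ => (Part.assert (q k.unpair.1) fun _ => Part.some ()).map
        (fun _ => (0 : ℕ))) := h1.map (Computable.const 0).to₂
    obtain ⟨c, hc⟩ := Nat.Partrec.Code.exists_code.1 (Partrec.nat_iff.1 h2)
    refine ⟨fun n => Encodable.encode (Nat.Partrec.Code.curry c n), ?_, fun n => ?_⟩
    · exact Computable.encode.comp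
        ((Primrec₂.to_comp Nat.Partrec.Code.primrec₂_curry).comp (Computable.const c) Computable.id)
    · have h3 : (Nat.Partrec.Code.eval (Denumerable.ofNat Nat.Partrec.Code
          (Encodable.encode (Nat.Partrec.Code.curry c n))) 0).Dom ↔ q n := by
        rw [Denumerable.ofNat_encode, Nat.Partrec.Code.eval_curry, hc]
        simp [Part.assert]
      exact h3.symm

theorem rowK (hF : RowF) : RowK := by
  obtain ⟨P, hp, huniv⟩ := universal_re
  obtain ⟨f, hf, hfP⟩ := Vale.Agent.P027.R4.H297.exists_coord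
  refine ⟨{a | P a}, f, hp, ?_, fun B hB => ?_, hf, fun B J => ?_⟩
  · intro h
    obtain ⟨q, hq, hqn⟩ := N1.halting
    obtain ⟨g, hg, hgq⟩ := huniv q hq
    apply hqn
    have h1 : REPred (fun n => ¬ P (g n)) := N1.comp_re h hg
    exact h1.of_eq (fun n => by rw [← hgq n])
  · obtain ⟨g, hg, hgB⟩ := huniv _ hB
    exact ⟨g, hg, hgB⟩
  · have hS : REPred (fun a : Fin 1 → ℤ => a ∈ {a : Fin 1 → ℤ | P (a 0).toNat}) := by
      have h1 : Computable (fun a : Fin 1 → ℤ => (a 0).toNat) :=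
        (primrec_toNat.comp (Primrec.fin_app.comp Primrec.id (Primrec.const 0))).to_comp
      exact N1.comp_re hp h1
    obtain ⟨m, r, F, hF⟩ := hF B J 1 _ hS
    obtain ⟨G, d, hG⟩ := homog F
    refine ⟨m, r, G, fun R R' hR hR' a => ?_⟩
    obtain ⟨h2, e, h3⟩ := hfP a
    have h2' : (f a 2 : ℚ) ≠ 0 := by exact_mod_cast h2
    have key := hF R R' hR hR' (fun ij => (f a (Fin.castSucc ij.2) : ℚ) / f a 2)
    have h4 : (∃ (u : Fin m → ℚ) (y : Fin r → ℚ), (∀ i, u i ∈ R) ∧ (∀ j, y j ∈ R') ∧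
        aeval (Sum.elim (fun i => (f a i : ℚ)) (Sum.elim u y)) G = 0) ↔
        ∃ (u : Fin m → ℚ) (y : Fin r → ℚ), (∀ i, u i ∈ R) ∧ (∀ j, y j ∈ R') ∧
        aeval (Sum.elim (fun ij : Fin 1 × Fin 2 => (f a (Fin.castSucc ij.2) : ℚ) / f a 2)
          (Sum.elim u y)) F = 0 := by
      refine exists_congr fun u => exists_congr fun y => and_congr_right fun _ =>
        and_congr_right fun _ => ?_
      rw [hG (fun i => (f a i : ℚ)) (Sum.elim u y) h2', mul_eq_zero_iff_left (pow_ne_zero _ h2')]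
    rw [h4, ← key]
    constructor
    · intro ha
      refine ⟨fun _ => (a : ℤ), by simpa using ha, fun i => ⟨e, ?_⟩⟩
      exact h3.symm
    · rintro ⟨b, hb, hab⟩
      obtain ⟨e', h5⟩ := hab 0
      have h6 : (2 * (a : ℤ) + 1) • P0 = (2 * b 0 + 1) • P0 := by
        rw [h3, ← h5]
        rfl
      have h7 : (2 * (a : ℤ) + 1 - (2 * b 0 + 1)) • P0 = 0 := by
        rw [sub_zsmul, h6]
        exact add_neg_cancel _
      have h8 : b 0 = (a : ℤ) := by
        by_contra hne
        exact zsmul_P0_ne_zero (by omega) h7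
      have h9 : P (b 0).toNat := hb
      rw [h8] at h9
      simpa using h9

end Vale.Agent.P027.D1
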