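import Vale.Agent.P027.R4.H788.Sparse
import Vale.Agent.P027.R4.H788.Arith
import Vale.Agent.P027.R4.H297.Comp

set_option linter.all false

/-! The sparse set of omitted primes is computable. -/

namespace Vale.Agent.P027.R4.H297

open Vale.Agent.P345 Vale.Agent.P027 Vale.Agent.P027.HT Vale.Agent.P027.D1

section primrec

variable {α : Type} [Primcodable α]

lemma ex_lt {P : ℕ → α → Prop} {g : α → ℕ} (hP : PrimrecRel P) (hg : Primrec g) :
    PrimrecPred fun a => ∃ x < g a, P x a := by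
  have h1 := (PrimrecRel.exists_mem_list hP).comp (Primrec.list_range.comp hg) Primrec.id
  exact h1.of_eq (fun a => by simp)

lemma all_lt {P : ℕ → α → Prop} {g : α → ℕ} (hP : PrimrecRel P) (hg : Primrec g) :
    PrimrecPred fun a => ∀ x < g a, P x a := by
  have h1 := (PrimrecRel.forall_mem_list hP).comp (Primrec.list_range.comp hg) Primrec.id
  exact h1.of_eq (fun a => by simp)

lemma pp_imp {p r : α → Prop} (hp : PrimrecPred p) (hr : PrimrecPred r) :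
    PrimrecPred fun a => p a → r a :=
  (hp.not.or hr).of_eq (fun a => by tauto)

lemma pp_dvd {f g : α → ℕ} (hf : Primrec f) (hg : Primrec g) : PrimrecPred fun a => f a ∣ g a :=
  (Primrec.eq.comp (Primrec.nat_mod.comp hg hf) (Primrec.const 0)).of_eq
    (fun a => (Nat.dvd_iff_mod_eq_zero).symm)

lemma pr_pow {f g : α → ℕ} (hf : Primrec f) (hg : Primrec g) : Primrec fun a => f a ^ g a := by
  have hp : Primrec₂ (fun a b : ℕ => a ^ b) := Primrec₂.unpaired'.1 Nat.Primrec.pow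
  exact hp.comp hf hg

lemma prime_iff (p : ℕ) : p.Prime ↔ 2 ≤ p ∧ ∀ a < p, ∀ b < p, a * b ≠ p := by
  constructor
  · intro hp
    refine ⟨hp.two_le, fun a ha b hb h => ?_⟩
    have h1 : a ∣ p := ⟨b, h.symm⟩
    rcases (Nat.dvd_prime hp).1 h1 with h2 | h2
    · subst h2; omega
    · omega
  · rintro ⟨h2, h⟩
    rw [Nat.prime_def]
    refine ⟨h2, fun m hm => ?_⟩
    obtain ⟨c, hc⟩ := hm
    have hm0 : m ≠ 0 := by rintro rfl; omega
    have hc0 : c ≠ 0 := by rintro rfl; omega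
    have hmp : m ≤ p := Nat.le_of_dvd (by omega) ⟨c, hc⟩
    have hcp : c ≤ p := Nat.le_of_dvd (by omega) ⟨m, by rw [hc]; ring⟩
    rcases hmp.lt_or_eq with h3 | h3
    · rcases hcp.lt_or_eq with h4 | h4
      · exact absurd hc.symm (h m h3 c h4)
      · left
        have h5 : m * p = 1 * p := by rw [one_mul]; nth_rewrite 2 [hc]; rw [h4]
        exact Nat.eq_of_mul_eq_mul_right (by omega) h5
    · right; exact h3

lemma pp_prime {f : α → ℕ} (hf : Primrec f) : PrimrecPred fun a => (f a).Prime := by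
  have h1 : PrimrecPred fun u : ℕ × ℕ => ∀ b < u.2, u.1 * b ≠ u.2 := by
    apply all_lt (P := fun b u => u.1 * b ≠ u.2) _ Primrec.snd
    have : PrimrecPred fun v : ℕ × (ℕ × ℕ) => v.2.1 * v.1 = v.2.2 :=
      Primrec.eq.comp (Primrec.nat_mul.comp (Primrec.fst.comp Primrec.snd) Primrec.fst)
        (Primrec.snd.comp Primrec.snd)
    exact this.not
  have h2 : PrimrecPred fun p : ℕ => ∀ a < p, ∀ b < p, a * b ≠ p := by
    apply all_lt (P := fun a p => ∀ b < p, a * b ≠ p) _ Primrec.id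
    exact h1
  have h3 : PrimrecPred fun p : ℕ => p.Prime :=
    ((Primrec.nat_le.comp (Primrec.const 2) Primrec.id).and h2).of_eq
      (fun p => (prime_iff p).symm)
  exact PrimrecPred.comp h3 hf

end primrec

section den

/-- absolute value of the difference of a pair -/
def na (p : ℕ × ℕ) : ℕ := (p.1 - p.2) + (p.2 - p.1)

lemma na_eq (p : ℕ × ℕ) : na p = (dv p).natAbs := by
  unfold na dv
  omega

lemma pr_na {α : Type} [Primcodable α] {f : α → ℕ × ℕ} (hf : Primrec f) :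
    Primrec fun a => na (f a) :=
  Primrec.nat_add.comp (Primrec.nat_sub.comp (Primrec.fst.comp hf) (Primrec.snd.comp hf))
    (Primrec.nat_sub.comp (Primrec.snd.comp hf) (Primrec.fst.comp hf))

/-- the greatest common divisor by bounded search -/
def gf (a b : ℕ) : ℕ := Nat.findGreatest (fun g => g ∣ a ∧ g ∣ b) a

lemma gf_eq {a : ℕ} (ha : 0 < a) (b : ℕ) : gf a b = Nat.gcd a b := by
  unfold gf
  rw [Nat.findGreatest_eq_iff]
  refine ⟨Nat.le_of_dvd ha (Nat.gcd_dvd_left a b), fun _ => ⟨Nat.gcd_dvd_left a b,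
    Nat.gcd_dvd_right a b⟩, fun n hn _ hc => ?_⟩
  have h1 := Nat.le_of_dvd (Nat.gcd_pos_of_pos_left b ha) (Nat.dvd_gcd hc.1 hc.2)
  omega

lemma pr_gf {α : Type} [Primcodable α] {f g : α → ℕ} (hf : Primrec f) (hg : Primrec g) :
    Primrec fun a => gf (f a) (g a) := by
  have h1 : PrimrecRel (fun (a : α) (n : ℕ) => n ∣ f a ∧ n ∣ g a) :=
    (pp_dvd Primrec.snd (hf.comp Primrec.fst)).and (pp_dvd Primrec.snd (hg.comp Primrec.fst))
  exact Primrec.nat_findGreatest hf h1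

/-- the denominators of the first coordinates of the odd multiples -/
theorem exists_dn : ∃ dn : ℕ → ℕ, Primrec dn ∧
    ∀ n : ℕ, dn n = (xc ((2 * (n : ℤ) + 1) • P0)).den := by
  obtain ⟨f, hf, h⟩ := exists_seq
  refine ⟨fun n => na (f n).2.2 / gf (na (f n).2.2) (na (f n).1), ?_, fun n => ?_⟩
  · have h1 : Primrec fun n => na (f n).2.2 := pr_na (Primrec.snd.comp (Primrec.snd.comp hf))
    have h2 : Primrec fun n => na (f n).1 := pr_na (Primrec.fst.comp hf)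
    exact Primrec.nat_div.comp h1 (pr_gf h1 h2)
  · obtain ⟨h1, e, h2⟩ := h n
    have h3 : xc ((2 * (n : ℤ) + 1) • P0) = dv (f n).1 / dv (f n).2.2 := by
      rw [h2]
      exact xc_of_hasX ⟨_, e, rfl⟩
    have h4 : 0 < na (f n).2.2 := by
      rw [na_eq]
      omega
    simp only
    rw [gf_eq h4, h3, ← Rat.divInt_eq_div, Rat.den_divInt, if_neg h1, na_eq, na_eq]
    rfl

end den

lemma odd_index {m : ℕ} (hm : m % 2 = 1) : 2 * (((m - 1) / 2 : ℕ) : ℤ) + 1 = (m : ℤ) := by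
  omega

lemma dv_iff_den {q : ℕ} {n : ℤ} (hn : n ≠ 0) : Dv q n ↔ q ∣ (xc (n • P0)).den := by
  unfold Dv
  constructor
  · rintro (h | h)
    · exact absurd h hn
    · exact h
  · exact Or.inr

lemma ord_pow_iff {q r e : ℕ} (hq : q.Prime) (hr : r.Prime) (he : 1 ≤ e) :
    Ord q (r ^ e) ↔ q ∣ (xc (((r ^ e : ℕ) : ℤ) • P0)).den ∧
      ¬ q ∣ (xc (((r ^ (e - 1) : ℕ) : ℤ) • P0)).den := by
  have h0 : ∀ i : ℕ, ((r ^ i : ℕ) : ℤ) ≠ 0 := fun i => by
    exact_mod_cast (pow_pos hr.pos i).ne'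
  rw [← dv_iff_den (h0 e), ← dv_iff_den (h0 (e - 1))]
  constructor
  · intro h
    refine ⟨(h.2 _).2 dvd_rfl, fun h1 => ?_⟩
    have h2 : r ^ e ∣ r ^ (e - 1) := Int.natCast_dvd_natCast.1 ((h.2 _).1 h1)
    have h3 := (Nat.pow_dvd_pow_iff_le_right hr.one_lt).1 h2
    omega
  · rintro ⟨h1, h2⟩
    obtain ⟨m, hm, hme⟩ := rowO q hq (r ^ e) (pow_pos hr.pos e) h1
    obtain ⟨i, hi, rfl⟩ := (Nat.dvd_prime_pow hr).1 hme
    rcases hi.lt_or_eq with h3 | h3
    · exfalso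
      apply h2
      rw [hm.2]
      exact Int.natCast_dvd_natCast.2 (pow_dvd_pow r (by omega))
    · rw [← h3]
      exact hm

/-- the set of omitted primes is computable -/
theorem comp_TS {N C : ℕ} (hN : ∀ r e : ℕ, r.Prime → r ≠ 2 → 1 ≤ e → N < r ^ e →
    ∃ q : ℕ, q.Prime ∧ Ord q (r ^ e))
    (htriv : ∀ q m : ℕ, q.Prime → Ord q m → m ≤ 2 * (q + 1)) :
    ComputablePred (fun q => q ∈ TS C N) := by
  obtain ⟨dn, hdn, hd⟩ := exists_dn
  -- the order of `q` is `r ^ e`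
  let PO : ℕ × ℕ × ℕ → Prop := fun u =>
    u.1 ∣ dn ((u.2.1 ^ u.2.2 - 1) / 2) ∧ ¬ u.1 ∣ dn ((u.2.1 ^ (u.2.2 - 1) - 1) / 2)
  have hr : Primrec fun u : ℕ × ℕ × ℕ => u.2.1 := Primrec.fst.comp Primrec.snd
  have he : Primrec fun u : ℕ × ℕ × ℕ => u.2.2 := Primrec.snd.comp Primrec.snd
  have hhalf : ∀ {g : ℕ × ℕ × ℕ → ℕ}, Primrec g → Primrec fun u => dn ((g u - 1) / 2) :=
    fun hg => hdn.comp (Primrec.nat_div.comp (Primrec.nat_sub.comp hg (Primrec.const 1))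
      (Primrec.const 2))
  have hPO : PrimrecPred PO := by
    refine (pp_dvd Primrec.fst (hhalf (pr_pow hr he))).and (PrimrecPred.not ?_)
    exact pp_dvd Primrec.fst (hhalf (pr_pow hr (Primrec.nat_sub.comp he (Primrec.const 1))))
  have hPO' : ∀ q r e : ℕ, q.Prime → r.Prime → r ≠ 2 → 1 ≤ e → (PO (q, r, e) ↔ Ord q (r ^ e)) := by
    intro q r e hq hr hr2 he
    have hodd : ∀ i, r ^ i % 2 = 1 := fun i =>
      Nat.odd_iff.1 ((hr.odd_of_ne_two hr2).pow)
    rw [ord_pow_iff hq hr he]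
    simp only [PO]
    rw [hd, hd, odd_index (hodd e), odd_index (hodd (e - 1))]
  -- the maximality clause
  have hmax : PrimrecPred fun u : ℕ × ℕ × ℕ => ∀ q' < dn ((u.2.1 ^ u.2.2 - 1) / 2) + 1,
      (q'.Prime → PO (q', u.2.1, u.2.2) → q' ≤ u.1) := by
    apply all_lt (P := fun q' (u : ℕ × ℕ × ℕ) => (q'.Prime → PO (q', u.2.1, u.2.2) → q' ≤ u.1)) _
      (Primrec.succ.comp (hhalf (pr_pow hr he)))
    have k1 : PrimrecPred fun v : ℕ × (ℕ × ℕ × ℕ) => PO (v.1, v.2.2.1, v.2.2.2) :=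
      PrimrecPred.comp hPO (Primrec.pair Primrec.fst
        (Primrec.pair (hr.comp Primrec.snd) (he.comp Primrec.snd)))
    exact pp_imp (pp_prime Primrec.fst) (pp_imp k1
      (Primrec.nat_le.comp Primrec.fst (Primrec.fst.comp Primrec.snd)))
  have hall : PrimrecPred fun u : ℕ × ℕ × ℕ => u.2.1.Prime ∧ ¬ u.2.1 ∣ 2 * C ∧ 1 ≤ u.2.2 ∧
      N < u.2.1 ^ u.2.2 ∧ PO u ∧ ∀ q' < dn ((u.2.1 ^ u.2.2 - 1) / 2) + 1,
        (q'.Prime → PO (q', u.2.1, u.2.2) → q' ≤ u.1) :=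
    (pp_prime hr).and ((pp_dvd hr (Primrec.const _)).not.and
      ((Primrec.nat_le.comp (Primrec.const 1) he).and
        ((Primrec.nat_lt.comp (Primrec.const N) (pr_pow hr he)).and (hPO.and hmax))))
  have hb : Primrec fun q : ℕ => 2 * q + 3 :=
    Primrec.nat_add.comp (Primrec.nat_mul.comp (Primrec.const 2) Primrec.id) (Primrec.const 3)
  have h1 : PrimrecPred fun w : ℕ × ℕ => ∃ e < 2 * w.2 + 3, (w.1.Prime ∧ ¬ w.1 ∣ 2 * C ∧ 1 ≤ e ∧
      N < w.1 ^ e ∧ PO (w.2, w.1, e) ∧ ∀ q' < dn ((w.1 ^ e - 1) / 2) + 1,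
        (q'.Prime → PO (q', w.1, e) → q' ≤ w.2)) := by
    apply ex_lt (P := fun e (w : ℕ × ℕ) => (w.1.Prime ∧ ¬ w.1 ∣ 2 * C ∧ 1 ≤ e ∧
      N < w.1 ^ e ∧ PO (w.2, w.1, e) ∧ ∀ q' < dn ((w.1 ^ e - 1) / 2) + 1,
        (q'.Prime → PO (q', w.1, e) → q' ≤ w.2))) _ (hb.comp Primrec.snd)
    exact PrimrecPred.comp hall (Primrec.pair (Primrec.snd.comp Primrec.snd)
      (Primrec.pair (Primrec.fst.comp Primrec.snd) Primrec.fst))
  have h2 : PrimrecPred fun q : ℕ => ∃ r < 2 * q + 3, ∃ e < 2 * q + 3, (r.Prime ∧ ¬ r ∣ 2 * C ∧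
      1 ≤ e ∧ N < r ^ e ∧ PO (q, r, e) ∧ ∀ q' < dn ((r ^ e - 1) / 2) + 1,
        (q'.Prime → PO (q', r, e) → q' ≤ q)) := by
    apply ex_lt (P := fun r q => ∃ e < 2 * q + 3, (r.Prime ∧ ¬ r ∣ 2 * C ∧
      1 ≤ e ∧ N < r ^ e ∧ PO (q, r, e) ∧ ∀ q' < dn ((r ^ e - 1) / 2) + 1,
        (q'.Prime → PO (q', r, e) → q' ≤ q))) _ hb
    exact h1
  have h3 : PrimrecPred fun q : ℕ => q ∈ TS C N := by
    refine ((pp_prime Primrec.id).and h2).of_eq (fun q => ?_)
    rw [mem_TS_iff hN]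
    refine and_congr_right (fun hq => ?_)
    constructor
    · rintro ⟨r, -, e, -, hr, hrC, he, hNe, hp, hm⟩
      have hr2 : r ≠ 2 := by
        rintro rfl
        exact hrC (dvd_mul_right _ _)
      refine ⟨r, e, hr, hrC, he, hNe, (hPO' q r e hq hr hr2 he).1 hp, fun q' hq' ho => ?_⟩
      refine hm q' ?_ hq' ((hPO' q' r e hq' hr hr2 he).2 ho)
      have hodd : r ^ e % 2 = 1 := Nat.odd_iff.1 ((hr.odd_of_ne_two hr2).pow)
      rw [hd, odd_index hodd]
      exact Nat.lt_succ_of_le (ord_le_den ho)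
    · rintro ⟨r, e, hr, hrC, he, hNe, ho, hm⟩
      have hr2 : r ≠ 2 := by
        rintro rfl
        exact hrC (dvd_mul_right _ _)
      have h4 := htriv q _ hq ho
      have h5 : r ≤ r ^ e := Nat.le_self_pow (by omega) r
      have h6 : e < r ^ e := Nat.lt_pow_self hr.one_lt
      refine ⟨r, by omega, e, by omega, hr, hrC, he, hNe, (hPO' q r e hq hr hr2 he).2 ho,
        fun q' _ hq' hp => hm q' hq' ((hPO' q' r e hq' hr hr2 he).1 hp)⟩
  obtain ⟨i, hi⟩ := h3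
  exact ⟨i, hi.to_comp⟩

end Vale.Agent.P027.R4.H297
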