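import Vale.Agent.P027.R4.H297.CompF

set_option linter.all false

/-! The conditional part: if one set of the class is Diophantine over the rationals. -/

namespace Vale.Agent.P027.D1

open MvPolynomial Vale.Agent.P345 Vale.Agent.P027 Vale.Agent.P027.HT

/-- `R` is Diophantine over the rationals -/
def DioQ (R : Set ℚ) : Prop :=
  ∃ (l : ℕ) (g : MvPolynomial (Fin 1 ⊕ Fin l) ℤ), ∀ x : ℚ,
    (x ∈ R ↔ ∃ z : Fin l → ℚ, aeval (Sum.elim (fun _ => x) z) g = 0)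

/-- unknowns in a set that is Diophantine over the rationals can be replaced by rational
unknowns -/
theorem elim_dio {σ : Type} {m r : ℕ} (F : MvPolynomial (σ ⊕ Fin m ⊕ Fin r) ℤ) {R : Set ℚ}
    (hR : DioQ R) : ∃ (r' : ℕ) (F' : MvPolynomial (σ ⊕ Fin r') ℤ), ∀ x : σ → ℚ,
      ((∃ y : Fin r' → ℚ, aeval (Sum.elim x y) F' = 0) ↔
        ∃ (u : Fin m → ℚ) (y : Fin r → ℚ), (∀ i, u i ∈ R) ∧ (∀ j, y j ∈ (Set.univ : Set ℚ)) ∧
          aeval (Sum.elim x (Sum.elim u y)) F = 0) := by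
  obtain ⟨l, g, hg⟩ := hR
  let W : Type := (Fin m ⊕ Fin r) ⊕ (Fin m × Fin l)
  let eq : Fin (Fintype.card W) ≃ W := (Fintype.equivFin W).symm
  let F₁ : MvPolynomial (σ ⊕ W) ℤ :=
    (rename (Sum.map id Sum.inl) F) ^ 2 +
    ∑ i : Fin m, (rename (Sum.elim (fun _ => Sum.inr (Sum.inl (Sum.inl i)))
      (fun j => Sum.inr (Sum.inr (i, j)))) g) ^ 2
  refine ⟨Fintype.card W, rename (Sum.map id eq.symm) F₁, fun x => ?_⟩
  have ev : ∀ w : W → ℚ, aeval (Sum.elim x w) F₁ =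
      (aeval (Sum.elim x (Sum.elim (fun i => w (Sum.inl (Sum.inl i)))
        (fun i => w (Sum.inl (Sum.inr i))))) F) ^ 2 + ∑ i : Fin m,
        (aeval (Sum.elim (fun _ => w (Sum.inl (Sum.inl i))) (fun j => w (Sum.inr (i, j)))) g) ^ 2 := by
    intro w
    simp only [F₁, map_add, map_pow, map_sum, aeval_rename]
    congr 1
    · congr 2
      congr 1
      funext i
      rcases i with i | i | i <;> rfl
    · refine Finset.sum_congr rfl (fun i _ => ?_)
      congr 2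
      congr 1
      funext j
      rcases j with j | j <;> rfl
  have hex : (∃ y : Fin (Fintype.card W) → ℚ,
      aeval (Sum.elim x y) (rename (Sum.map id eq.symm) F₁) = 0) ↔
      ∃ w : W → ℚ, aeval (Sum.elim x w) F₁ = 0 := by
    have key : ∀ y : Fin (Fintype.card W) → ℚ,
        Sum.elim x y ∘ Sum.map id eq.symm = Sum.elim x (y ∘ eq.symm) := by
      intro y; funext i; rcases i with i | i <;> rfl
    simp only [aeval_rename, key]
    constructor
    · rintro ⟨y, hy⟩; exact ⟨_, hy⟩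
    · rintro ⟨w, hw⟩
      refine ⟨w ∘ eq, ?_⟩
      have : (w ∘ eq) ∘ eq.symm = w := by funext i; simp
      rw [this]
      exact hw
  rw [hex]
  constructor
  · rintro ⟨w, hw⟩
    rw [ev] at hw
    have h1 : 0 ≤ ∑ i : Fin m, (aeval (Sum.elim (fun _ => w (Sum.inl (Sum.inl i)))
        (fun j => w (Sum.inr (i, j)))) g) ^ 2 := Finset.sum_nonneg (fun i _ => sq_nonneg _)
    have h2 := sq_nonneg (aeval (Sum.elim x (Sum.elim (fun i => w (Sum.inl (Sum.inl i)))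
        (fun i => w (Sum.inl (Sum.inr i))))) F)
    have h3 := pow_eq_zero_iff (n := 2) (by norm_num) |>.1 (le_antisymm (by linarith) h2)
    have h4 : ∑ i : Fin m, (aeval (Sum.elim (fun _ => w (Sum.inl (Sum.inl i)))
        (fun j => w (Sum.inr (i, j)))) g) ^ 2 = 0 := le_antisymm (by linarith) h1
    rw [Finset.sum_eq_zero_iff_of_nonneg (fun i _ => sq_nonneg _)] at h4
    refine ⟨_, _, fun i => ?_, fun _ => Set.mem_univ _, h3⟩
    have h5 := pow_eq_zero_iff (n := 2) (by norm_num) |>.1 (h4 i (Finset.mem_univ i))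
    exact (hg _).2 ⟨_, h5⟩
  · rintro ⟨u, y, hu, -, h⟩
    choose z hz using fun i => (hg (u i)).1 (hu i)
    refine ⟨Sum.elim (Sum.elim u y) (fun ij => z ij.1 ij.2), ?_⟩
    rw [ev]
    simp only [Sum.elim_inl, Sum.elim_inr]
    rw [h, Finset.sum_eq_zero (fun i _ => by rw [hz i]; ring)]
    ring

/-- if one `R` of the class is Diophantine over the rationals, then the recursively enumerable
sets of tuples of integers, coded by the points `(2 a + 1) P0`, are Diophantine over the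
rationals -/
theorem rowX (hF : RowF) {B J : ℕ} {R : Set ℚ} (hR : Cls B J R) (hdio : DioQ R) (k : ℕ)
    (S : Set (Fin k → ℤ)) (hS : REPred (fun a => a ∈ S)) :
    ∃ (r : ℕ) (F : MvPolynomial ((Fin k × Fin 2) ⊕ Fin r) ℤ), ∀ z : Fin k × Fin 2 → ℚ,
      ((∃ a ∈ S, ∀ i, ∃ e : z (i, 1) ^ 2 = z (i, 0) ^ 3 - 2 * z (i, 0),
          pt (z (i, 0)) (z (i, 1)) e = (2 * a i + 1) • P0) ↔
        ∃ y : Fin r → ℚ, aeval (Sum.elim z y) F = 0) := by
  obtain ⟨m, r, F, h⟩ := hF B J k S hS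
  obtain ⟨r', F', h'⟩ := elim_dio F hdio
  exact ⟨r', F', fun z => by rw [h' z, h R Set.univ hR (fun _ => Set.mem_univ _) z]⟩

/-- if one `R` of the class is Diophantine over the rationals, then Hilbert's tenth problem over
the rationals is undecidable -/
theorem rowX_undec (hF : RowF) : ∃ (A : Set ℕ) (f : ℕ → Fin 3 → ℤ), REPred (fun a => a ∈ A) ∧
    ¬ REPred (fun a => a ∉ A) ∧ (∀ B : Set ℕ, REPred (fun n => n ∈ B) →
      ∃ g : ℕ → ℕ, Computable g ∧ ∀ n, (n ∈ B ↔ g n ∈ A)) ∧ Computable f ∧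
    (∀ B J : ℕ, ∃ (m r : ℕ) (G : MvPolynomial (Fin 3 ⊕ Fin m ⊕ Fin r) ℤ), ∀ R R' : Set ℚ,
      Cls B J R → (∀ z : ℤ, (z : ℚ) ∈ R') → ∀ a : ℕ,
      (a ∈ A ↔ ∃ (u : Fin m → ℚ) (y : Fin r → ℚ), (∀ i, u i ∈ R) ∧ (∀ j, y j ∈ R') ∧
        aeval (Sum.elim (fun i => (f a i : ℚ)) (Sum.elim u y)) G = 0)) ∧
    ∀ (B J : ℕ) (R : Set ℚ), Cls B J R → DioQ R →
      ∃ (r : ℕ) (G : MvPolynomial (Fin 3 ⊕ Fin r) ℤ), ∀ a : ℕ,
        (a ∈ A ↔ ∃ y : Fin r → ℚ, aeval (Sum.elim (fun i => (f a i : ℚ)) y) G = 0) := by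
  obtain ⟨A, f, h1, h2, h3, h4, h5⟩ := rowK hF
  refine ⟨A, f, h1, h2, h3, h4, h5, fun B J R hR hdio => ?_⟩
  obtain ⟨m, r, G, h⟩ := h5 B J
  obtain ⟨r', G', h'⟩ := elim_dio G hdio
  exact ⟨r', G', fun a => by rw [h' _, h R Set.univ hR (fun _ => Set.mem_univ _) a]⟩

end Vale.Agent.P027.D1
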