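import Mathlib
import Vale.Agent.P027.R4.H849.Qp

set_option linter.all false

/-! The curve `y^2 = x^3 - 2x` over the `q`-adic numbers: the subgroups of points with a large
first coordinate, and multiplication by a prime. -/

namespace Vale.Agent.P027.R4.H297

open Vale.Agent.P027.R4.H849

section line

variable {F : Type} [Field F] [CharZero F] [DecidableEq F]

/-- the quotient of the two coordinates (`0` at infinity) -/
def zq : (EF F).Point → F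
  | .zero => 0
  | .some x y _ => x / y

lemma zq_zero : zq (0 : (EF F).Point) = 0 := rfl

lemma zq_pt {x y : F} (h : y ^ 2 = x ^ 3 - 2 * x) : zq (pt x y h) = x / y := rfl

/-- three collinear points: the relations between the coordinates -/
structure Line (x y x' y' x₃ y₃ l m : F) : Prop where
  h1 : y = l * x + m
  h2 : y' = l * x' + m
  h3 : -y₃ = l * x₃ + m
  e1 : x + x' + x₃ = l ^ 2
  e2 : x * x' + x * x₃ + x' * x₃ = -(2 + 2 * l * m)
  e3 : x * x' * x₃ = m ^ 2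

/-- sum of two points that are not inverse to each other -/
lemma exists_line {x y x' y' : F} (h : y ^ 2 = x ^ 3 - 2 * x) (h' : y' ^ 2 = x' ^ 3 - 2 * x')
    (hne : ¬ (x = x' ∧ y = -y')) : ∃ x₃ y₃ l m : F, ∃ h₃ : y₃ ^ 2 = x₃ ^ 3 - 2 * x₃,
      pt x y h + pt x' y' h' = pt x₃ y₃ h₃ ∧ Line x y x' y' x₃ y₃ l m := by
  have hxy : ¬ (x = x' ∧ y = (EF F).negY x' y') := by rw [negY_ef]; exact hne
  have hadd := WeierstrassCurve.Affine.Point.add_some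
    (h₁ := (ef_nonsingular_iff x y).2 h) (h₂ := (ef_nonsingular_iff x' y').2 h') hxy
  obtain ⟨l, hl⟩ : ∃ l, l = (EF F).slope x x' y y' := ⟨_, rfl⟩
  have hX : (EF F).addX x x' l = l ^ 2 - x - x' := by
    simp only [WeierstrassCurve.Affine.addX, EF]
    ring
  have hY : (EF F).addY x x' y l = -(l * (l ^ 2 - x - x' - x) + y) := by
    rw [WeierstrassCurve.Affine.addY, WeierstrassCurve.Affine.negAddY, negY_ef, hX]
  have hns := (ef_nonsingular_iff _ _).1 (WeierstrassCurve.Affine.nonsingular_add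
      ((ef_nonsingular_iff x y).2 h) ((ef_nonsingular_iff x' y').2 h') hxy)
  rw [← hl, hX, hY] at hns
  have key : l * (x - x') = y - y' ∧
      x ^ 2 + x * x' + x' ^ 2 - l ^ 2 * (x + x') - (2 + 2 * l * (y - l * x)) = 0 := by
    by_cases hx : x = x'
    · subst hx
      have hy : y ≠ -y' := fun h0 => hne ⟨rfl, h0⟩
      have hyy : y = y' := by
        have h2 : y ^ 2 = y' ^ 2 := by rw [h, h']
        rcases sq_eq_sq_iff_eq_or_eq_neg.1 h2 with h3 | h3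
        · exact h3
        · exact absurd h3 hy
      subst hyy
      have hy0 : y ≠ 0 := by
        rintro rfl
        apply hy; ring
      have hs : l = (3 * x ^ 2 - 2) / (2 * y) := by
        rw [hl, WeierstrassCurve.Affine.slope_of_Y_ne rfl (by rw [negY_ef]; exact hy), negY_ef]
        simp only [EF]
        congr 1 <;> ring
      refine ⟨by ring, ?_⟩
      have h2y : (2 * y : F) ≠ 0 := mul_ne_zero two_ne_zero hy0
      have hs' : l * (2 * y) = 3 * x ^ 2 - 2 := by rw [hs]; field_simp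
      linear_combination (-1 : F) * hs'
    · have hxx : x - x' ≠ 0 := sub_ne_zero.2 hx
      have hs : l = (y - y') / (x - x') := by
        rw [hl, WeierstrassCurve.Affine.slope_of_X_ne hx]
      have hlx : l * (x - x') = y - y' := by rw [hs]; field_simp
      refine ⟨hlx, ?_⟩
      have h0 : (x - x') * (x ^ 2 + x * x' + x' ^ 2 - l ^ 2 * (x + x') -
          (2 + 2 * l * (y - l * x))) = 0 := by
        have hy' : y' = y - l * (x - x') := by linear_combination hlx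
        rw [hy'] at h'
        linear_combination (-1 : F) * h + h'
      exact (mul_eq_zero.1 h0).resolve_left hxx
  refine ⟨l ^ 2 - x - x', -(l * (l ^ 2 - x - x' - x) + y), l, y - l * x, hns, ?_, ?_⟩
  · change WeierstrassCurve.Affine.Point.some x y _ + WeierstrassCurve.Affine.Point.some x' y' _ = _
    rw [hadd]
    unfold pt
    rw [WeierstrassCurve.Affine.Point.some.injEq, ← hl]
    exact ⟨hX, hY⟩
  · constructor
    · ring
    · linear_combination key.1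
    · ring
    · ring
    · linear_combination (-1 : F) * key.2
    · linear_combination (-x) * key.2 - h

/-- the sum of the quotients of the coordinates -/
lemma Line.sum {x y x' y' x₃ y₃ l m : F} (L : Line x y x' y' x₃ y₃ l m) (hy : y ≠ 0)
    (hy' : y' ≠ 0) (hy₃ : y₃ ≠ 0) (hm : m ≠ 0) (hd : m ^ 2 - 2 * l ^ 2 ≠ 0) :
    x₃ / y₃ - x / y - x' / y' = 4 * l / (m ^ 2 - 2 * l ^ 2) := by
  obtain ⟨A, hA⟩ : ∃ A, A = l * x + m := ⟨_, rfl⟩
  obtain ⟨A', hA'⟩ : ∃ A', A' = l * x' + m := ⟨_, rfl⟩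
  obtain ⟨A₃, hA₃⟩ : ∃ A₃, A₃ = l * x₃ + m := ⟨_, rfl⟩
  have hyA : y = A := by rw [hA]; exact L.h1
  have hyA' : y' = A' := by rw [hA']; exact L.h2
  have hyA₃ : y₃ = -A₃ := by rw [hA₃]; linear_combination (-1 : F) * L.h3
  have hP : A * A' * A₃ = m * (m ^ 2 - 2 * l ^ 2) := by
    rw [hA, hA', hA₃]
    linear_combination l ^ 3 * L.e3 + l ^ 2 * m * L.e2 + l * m ^ 2 * L.e1
  have hS : x * (A' * A₃) + x' * (A * A₃) + x₃ * (A * A') = -4 * l * m := by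
    rw [hA, hA', hA₃]
    linear_combination 3 * l ^ 2 * L.e3 + 2 * l * m * L.e2 + m ^ 2 * L.e1
  have hA0 : A ≠ 0 := by rw [← hyA]; exact hy
  have hA0' : A' ≠ 0 := by rw [← hyA']; exact hy'
  have hA0₃ : A₃ ≠ 0 := by
    intro h0; apply hy₃; rw [hyA₃, h0, neg_zero]
  have h1 : x₃ / y₃ - x / y - x' / y' =
      -(x * (A' * A₃) + x' * (A * A₃) + x₃ * (A * A')) / (A * A' * A₃) := by
    rw [hyA, hyA', hyA₃]
    field_simp
    ring
  rw [h1, hS, hP]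
  field_simp
  try ring

end line

section norms

variable {q : ℕ} [hq : Fact q.Prime]

lemma nadd_left {a b : ℚ_[q]} (h : ‖b‖ < ‖a‖) : ‖a + b‖ = ‖a‖ := by
  rw [Padic.add_eq_max_of_ne h.ne', max_eq_left h.le]

lemma nadd_le (a b : ℚ_[q]) : ‖a + b‖ ≤ max ‖a‖ ‖b‖ := Padic.nonarchimedean a b

lemma nsub_le (a b : ℚ_[q]) : ‖a - b‖ ≤ max ‖a‖ ‖b‖ := by
  have := nadd_le a (-b)
  rwa [norm_neg, ← sub_eq_add_neg] at this

lemma nint (z : ℤ) : ‖(z : ℚ_[q])‖ ≤ 1 := Padic.norm_int_le_one z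

lemma n2 : ‖(2 : ℚ_[q])‖ ≤ 1 := by exact_mod_cast nint (q := q) 2

lemma nm2 : ‖(-2 : ℚ_[q])‖ ≤ 1 := by rw [norm_neg]; exact n2

lemma n4 : ‖(4 : ℚ_[q])‖ ≤ 1 := by exact_mod_cast nint (q := q) 4

lemma n4pos : 0 < ‖(4 : ℚ_[q])‖ := norm_pos_iff.2 (by norm_num)

/-- if both coordinates are large, so is the coordinate of the sum -/
lemma large_sum {a b s d : ℚ_[q]} {B : ℝ} (hB : 1 < B) (ha : B ≤ ‖a‖) (hb : B ≤ ‖b‖)
    (hne : a ≠ b) (h1 : (s + d) * (a - b) ^ 2 = 2 * (a * b - 2) * (a + b))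
    (h2 : s * d * (a - b) ^ 2 = (a * b + 2) ^ 2) : B ≤ ‖s‖ := by
  by_contra hcon
  push Not at hcon
  have hab : 1 < ‖a * b‖ := by
    rw [norm_mul]; exact one_lt_mul_of_lt_of_le (hB.trans_le ha) (hB.le.trans hb)
  have n2 : ‖(2 : ℚ_[q])‖ ≤ 1 := n2
  have nm2 : ‖(-2 : ℚ_[q])‖ ≤ 1 := nm2
  have e1 : ‖a * b + 2‖ = ‖a‖ * ‖b‖ := by
    rw [nadd_left (by linarith only [hab, n2]), norm_mul]
  have e2 : ‖a * b - 2‖ = ‖a‖ * ‖b‖ := by
    rw [sub_eq_add_neg, nadd_left (by linarith only [hab, nm2]), norm_mul]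
  have e3 : ‖s‖ * ‖d‖ * ‖a - b‖ ^ 2 = (‖a‖ * ‖b‖) ^ 2 := by
    have := congrArg norm h2
    rw [norm_mul, norm_mul, norm_pow, norm_pow, e1] at this
    exact this
  have e4 : ‖s + d‖ * ‖a - b‖ ^ 2 ≤ ‖a‖ * ‖b‖ * ‖a + b‖ := by
    have := congrArg norm h1
    rw [norm_mul, norm_mul, norm_mul, norm_pow, e2] at this
    rw [this]
    have h3 : 0 ≤ ‖a‖ * ‖b‖ * ‖a + b‖ := by
      (clear B hB ha hb hne h1 h2 hcon hab n2 nm2 e1 e2 e3 this; positivity)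
    linarith only [mul_le_mul_of_nonneg_right n2 h3]
  have hD0 : 0 < ‖a - b‖ := norm_pos_iff.2 (sub_ne_zero.2 hne)
  have hD : ‖a - b‖ ≤ max ‖a‖ ‖b‖ := nsub_le a b
  have hE : ‖a + b‖ ≤ max ‖a‖ ‖b‖ := nadd_le a b
  have hs0 : 0 ≤ ‖s‖ := norm_nonneg _
  have hd0 : 0 ≤ ‖d‖ := norm_nonneg _
  have hsd : ‖s‖ < ‖d‖ → ‖s + d‖ = ‖d‖ := fun h => by rw [add_comm]; exact nadd_left h
  generalize ‖a - b‖ = D at *
  generalize ‖a + b‖ = E at *
  generalize ‖s + d‖ = T at *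
  generalize ‖s‖ = S at *
  generalize ‖d‖ = DD at *
  generalize ‖a‖ = α at *
  generalize ‖b‖ = β at *
  set M := max α β with hM
  set μ := min α β with hμ
  have hMμ : α * β = M * μ := (max_mul_min α β).symm
  have hμB : B ≤ μ := le_min ha hb
  have hμM : μ ≤ M := min_le_max
  rw [hMμ] at e3 e4
  have hM0 : 0 < M := by linarith only [hB, hμB, hμM]
  have hμ0 : 0 < μ := by linarith only [hB, hμB]
  have hprod : 0 < S * DD * D ^ 2 := by rw [e3]; (clear * - hM0 hμ0; positivity)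
  have hdpos : 0 < DD := by
    rcases hd0.lt_or_eq with h | h
    · exact h
    · rw [← h] at hprod; simp at hprod
  have hD2 : 0 < D ^ 2 := by (clear * - hD0; positivity)
  have k1 : M ^ 2 * μ < DD * D ^ 2 := by
    have h5 : S * (DD * D ^ 2) < μ * (DD * D ^ 2) := by
      apply mul_lt_mul_of_pos_right (by linarith only [hcon, hμB]) (by (clear * - hdpos hD0; positivity))
    have h6 : μ * (M ^ 2 * μ) < μ * (DD * D ^ 2) := by
      calc μ * (M ^ 2 * μ) = S * DD * D ^ 2 := by rw [e3]; ring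
        _ = S * (DD * D ^ 2) := by ring
        _ < _ := h5
    exact lt_of_mul_lt_mul_left h6 hμ0.le
  have hDM : D ^ 2 ≤ M ^ 2 := by
    apply pow_le_pow_left₀ hD0.le hD
  have k2 : μ < DD := by
    have h7 : μ * D ^ 2 < DD * D ^ 2 := by
      calc μ * D ^ 2 ≤ μ * M ^ 2 := by apply mul_le_mul_of_nonneg_left hDM hμ0.le
        _ = M ^ 2 * μ := by ring
        _ < _ := k1
    exact lt_of_mul_lt_mul_right h7 hD2.le
  have k3 : T = DD := hsd (by linarith only [hcon, hμB, k2])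
  rw [k3] at e4
  have k4 : M * μ * E ≤ M * μ * M := by
    apply mul_le_mul_of_nonneg_left hE (by (clear * - hM0 hμ0; positivity))
  linarith only [e4, k1, k4]

lemma large_cubic {a : ℚ_[q]} {B : ℝ} (hB : 1 < B) (ha : B ≤ ‖a‖) :
    ‖a ^ 3 - 2 * a‖ = ‖a‖ ^ 3 := by
  have nm2 : ‖(-2 : ℚ_[q])‖ ≤ 1 := nm2
  have h1 : a ^ 3 - 2 * a = a * (a * a + -2) := by ring
  have h2 : 1 < ‖a * a‖ := by rw [norm_mul]; nlinarith only [hB, ha]
  rw [h1, norm_mul, nadd_left (by linarith), norm_mul]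
  ring

lemma large_double {a : ℚ_[q]} {B : ℝ} (hB : 1 < B) (ha : B ≤ ‖a‖) :
    B ≤ ‖(a ^ 2 + 2) ^ 2 / (4 * (a ^ 3 - 2 * a))‖ := by
  have n2 : ‖(2 : ℚ_[q])‖ ≤ 1 := n2
  have n4 : ‖(4 : ℚ_[q])‖ ≤ 1 := n4
  have n4' : 0 < ‖(4 : ℚ_[q])‖ := n4pos
  have h2 : 1 < ‖a * a‖ := by rw [norm_mul]; nlinarith only [hB, ha]
  have h3 : ‖(a ^ 2 + 2) ^ 2‖ = ‖a‖ ^ 4 := by
    rw [norm_pow, sq a, nadd_left (by linarith), norm_mul]
    ring
  rw [norm_div, norm_mul, h3, large_cubic hB ha]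
  have ha0 : 0 < ‖a‖ := by linarith only [hB, ha]
  rw [le_div_iff₀ (by (clear * - n4' ha0; positivity))]
  have h4 : ‖(4 : ℚ_[q])‖ * ‖a‖ ^ 3 ≤ ‖a‖ ^ 3 := by nlinarith only [n4, pow_pos ha0 3]
  calc B * (‖(4 : ℚ_[q])‖ * ‖a‖ ^ 3) ≤ B * ‖a‖ ^ 3 := by
        apply mul_le_mul_of_nonneg_left h4; linarith
    _ ≤ ‖a‖ * ‖a‖ ^ 3 := by
        apply mul_le_mul_of_nonneg_right ha; (clear * - ha0; positivity)
    _ = ‖a‖ ^ 4 := by ring

lemma ne_zero_of_large {x : ℚ_[q]} {B : ℝ} (hB : 0 < B) (h : B ≤ ‖x‖) : x ≠ 0 := by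
  rintro rfl
  rw [norm_zero] at h
  linarith

/-- the subgroup of points whose first coordinate has norm at least `B` -/
def EB [DecidableEq ℚ_[q]] (B : ℝ) (hB : 1 < B) : AddSubgroup (EF ℚ_[q]).Point where
  carrier := {V | ∀ x, HX V x → B ≤ ‖x‖}
  zero_mem' := fun x h => (not_HX_zero h).elim
  neg_mem' := fun {V} hV x hx => hV x (by simpa using hx.neg)
  add_mem' := by
    intro V W hV hW x hx
    by_cases hV0 : V = 0
    · subst hV0; exact hW x (by simpa using hx)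
    by_cases hW0 : W = 0
    · subst hW0; exact hV x (by simpa using hx)
    obtain ⟨a, ha⟩ := exists_HX hV0
    obtain ⟨b, hb⟩ := exists_HX hW0
    have hVa := hV a ha
    have hWb := hW b hb
    by_cases hab : a = b
    · subst hab
      rcases ha.eq_or_neg hb with h | h
      · subst h
        have ha0 : a ^ 3 - 2 * a ≠ 0 := by
          intro h0
          have h3 := large_cubic hB hVa
          rw [h0, norm_zero] at h3
          have h4 : (0 : ℝ) < ‖a‖ ^ 3 := pow_pos (by linarith only [hB, hVa]) 3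
          linarith only [h3, h4]
        rw [hx.unique (HX_two_smul ha ha0)]
        exact large_double hB hVa
      · rw [h, neg_add_cancel] at hx
        exact (not_HX_zero hx).elim
    · obtain ⟨s, d, hs, hd, h1, h2⟩ := HX_add_sub ha hb hab
      rw [hx.unique hs]
      exact large_sum hB hVa hWb hab h1 h2

lemma mem_EB [DecidableEq ℚ_[q]] {B : ℝ} (hB : 1 < B) {V : (EF ℚ_[q]).Point} :
    V ∈ EB B hB ↔ ∀ x, HX V x → B ≤ ‖x‖ := Iff.rfl

lemma mem_EB_of_HX [DecidableEq ℚ_[q]] {B : ℝ} (hB : 1 < B) {V : (EF ℚ_[q]).Point} {x : ℚ_[q]}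
    (h : HX V x) : V ∈ EB B hB ↔ B ≤ ‖x‖ := by
  rw [mem_EB]
  refine ⟨fun h1 => h1 x h, fun h1 x' h' => ?_⟩
  rw [h'.unique h]; exact h1

end norms

section mult

variable {q : ℕ} [hq : Fact q.Prime] [DecidableEq ℚ_[q]]

lemma sq_max {a b : ℚ_[q]} {c : ℝ} (ha : ‖a‖ ^ 2 ≤ c) (hb : ‖b‖ ^ 2 ≤ c) : ‖a + b‖ ^ 2 ≤ c := by
  have h := nadd_le a b
  rcases le_total ‖a‖ ‖b‖ with h1 | h1
  · rw [max_eq_right h1] at h
    exact (pow_le_pow_left₀ (norm_nonneg _) h 2).trans hb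
  · rw [max_eq_left h1] at h
    exact (pow_le_pow_left₀ (norm_nonneg _) h 2).trans ha

/-- the norm of the second coordinate -/
lemma norm_y {x y : ℚ_[q]} {B : ℝ} (hB : 1 < B) (hx : B ≤ ‖x‖) (h : y ^ 2 = x ^ 3 - 2 * x) :
    ‖y‖ ^ 2 = ‖x‖ ^ 3 := by
  rw [← large_cubic hB hx, ← h, norm_pow]

lemma y_ne {x y : ℚ_[q]} {B : ℝ} (hB : 1 < B) (hx : B ≤ ‖x‖) (h : y ^ 2 = x ^ 3 - 2 * x) :
    y ≠ 0 := by
  rintro rfl
  have h1 := norm_y hB hx h
  have h2 : (0 : ℝ) < ‖x‖ ^ 3 := pow_pos (by linarith only [hB, hx]) 3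
  rw [norm_zero] at h1
  have : (0 : ℝ) ^ 2 = 0 := by norm_num
  linarith only [h1, h2, this]

/-- the norm of the quotient of the coordinates -/
lemma norm_zq {V : (EF ℚ_[q]).Point} {x : ℚ_[q]} (hV : HX V x) (hx : 1 < ‖x‖) :
    ‖zq V‖ ^ 2 * ‖x‖ = 1 := by
  obtain ⟨y, h, rfl⟩ := hV
  have h1 := norm_y hx le_rfl h
  have h2 := y_ne hx le_rfl h
  have h3 : 0 < ‖y‖ := norm_pos_iff.2 h2
  have h4 : 0 < ‖x‖ := by linarith only [hx]
  rw [zq_pt, norm_div, div_pow, h1]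
  field_simp

/-- the quotient of the coordinates is nearly additive on the subgroup -/
lemma zq_add {B : ℝ} (hB : 1 < B) {V W : (EF ℚ_[q]).Point} (hV : V ∈ EB B hB)
    (hW : W ∈ EB B hB) : ‖zq (V + W) - zq V - zq W‖ ^ 2 * B ^ 5 ≤ 1 := by
  have hB0 : 0 < B := by linarith only [hB]
  by_cases hV0 : V = 0
  · subst hV0
    rw [zero_add, zq_zero, sub_zero, sub_self, norm_zero]
    norm_num
  by_cases hW0 : W = 0
  · subst hW0
    rw [add_zero, zq_zero, sub_zero, sub_self, norm_zero]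
    norm_num
  obtain ⟨x, hx⟩ := exists_HX hV0
  obtain ⟨x', hx'⟩ := exists_HX hW0
  have nx := hV x hx
  have nx' := hW x' hx'
  obtain ⟨y, h, rfl⟩ := hx
  obtain ⟨y', h', rfl⟩ := hx'
  by_cases hne : x = x' ∧ y = -y'
  · obtain ⟨rfl, rfl⟩ := hne
    have e : pt x (-y') h + pt x y' h' = 0 := by
      have : pt x (-y') h = -pt x y' h' := by rw [neg_pt]
      rw [this, neg_add_cancel]
    rw [e, zq_zero, zq_pt, zq_pt]
    have : (0 : ℚ_[q]) - x / -y' - x / y' = 0 := by rw [div_neg]; ring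
    rw [this, norm_zero]
    norm_num
  obtain ⟨x₃, y₃, l, m, h₃, hs, L⟩ := exists_line h h' hne
  have hVW : pt x y h + pt x' y' h' ∈ EB B hB := (EB B hB).add_mem hV hW
  have nx₃ : B ≤ ‖x₃‖ := hVW x₃ ⟨y₃, h₃, hs⟩
  have hy := y_ne hB nx h
  have hy' := y_ne hB nx' h'
  have hy₃ := y_ne hB nx₃ h₃
  have px : 0 < ‖x‖ := by linarith only [hB, nx]
  have px' : 0 < ‖x'‖ := by linarith only [hB, nx']
  have px₃ : 0 < ‖x₃‖ := by linarith only [hB, nx₃]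
  have hm2 : ‖m‖ ^ 2 = ‖x‖ * ‖x'‖ * ‖x₃‖ := by
    rw [← norm_pow, ← L.e3, norm_mul, norm_mul]
  have hl2 : ‖l‖ ^ 2 ≤ max (max ‖x‖ ‖x'‖) ‖x₃‖ := by
    rw [← norm_pow, ← L.e1]
    exact (nadd_le _ _).trans (max_le_max (nadd_le _ _) le_rfl)
  have hlm : ‖l‖ ^ 2 * B ^ 2 ≤ ‖m‖ ^ 2 := by
    rw [hm2]
    have q1 : B ^ 2 ≤ ‖x'‖ * ‖x₃‖ := by nlinarith only [hB0, nx', nx₃]
    have q2 : B ^ 2 ≤ ‖x‖ * ‖x₃‖ := by nlinarith only [hB0, nx, nx₃]
    have q3 : B ^ 2 ≤ ‖x‖ * ‖x'‖ := by nlinarith only [hB0, nx, nx']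
    have hB2 : 0 ≤ B ^ 2 := by positivity
    rcases max_choice (max ‖x‖ ‖x'‖) ‖x₃‖ with k | k
    · rcases max_choice ‖x‖ ‖x'‖ with k' | k'
      · rw [k, k'] at hl2
        calc ‖l‖ ^ 2 * B ^ 2 ≤ ‖x‖ * (‖x'‖ * ‖x₃‖) :=
              mul_le_mul hl2 q1 hB2 px.le
          _ = _ := by ring
      · rw [k, k'] at hl2
        calc ‖l‖ ^ 2 * B ^ 2 ≤ ‖x'‖ * (‖x‖ * ‖x₃‖) :=
              mul_le_mul hl2 q2 hB2 px'.le
          _ = _ := by ring
    · rw [k] at hl2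
      calc ‖l‖ ^ 2 * B ^ 2 ≤ ‖x₃‖ * (‖x‖ * ‖x'‖) :=
            mul_le_mul hl2 q3 hB2 px₃.le
        _ = _ := by ring
  have hm0 : m ≠ 0 := by
    rintro rfl
    rw [norm_zero] at hm2
    have : 0 < ‖x‖ * ‖x'‖ * ‖x₃‖ := by positivity
    have h0 : (0 : ℝ) ^ 2 = 0 := by norm_num
    linarith only [this, hm2, h0]
  have pm : 0 < ‖m‖ := norm_pos_iff.2 hm0
  have hlt : ‖l‖ ^ 2 < ‖m‖ ^ 2 := by
    rcases (sq_nonneg ‖l‖).lt_or_eq with h0 | h0
    · have hB2 : 1 < B ^ 2 := one_lt_pow₀ hB (by norm_num)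
      nlinarith only [h0, hB2, hlm]
    · rw [← h0]; positivity
  have hden : ‖m ^ 2 - 2 * l ^ 2‖ = ‖m‖ ^ 2 := by
    have e : m ^ 2 - 2 * l ^ 2 = m ^ 2 + -2 * l ^ 2 := by ring
    have nm2 : ‖(-2 : ℚ_[q])‖ ≤ 1 := nm2
    have k : ‖-2 * l ^ 2‖ < ‖m ^ 2‖ := by
      rw [norm_mul, norm_pow, norm_pow]
      calc ‖(-2 : ℚ_[q])‖ * ‖l‖ ^ 2 ≤ 1 * ‖l‖ ^ 2 :=
            mul_le_mul_of_nonneg_right nm2 (by positivity)
        _ < _ := by rw [one_mul]; exact hlt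
    rw [e, nadd_left k, norm_pow]
  have hd0 : m ^ 2 - 2 * l ^ 2 ≠ 0 := by
    intro h0
    rw [h0, norm_zero] at hden
    have : 0 < ‖m‖ ^ 2 := by positivity
    linarith only [this, hden]
  rw [hs, zq_pt, zq_pt, zq_pt, L.sum hy hy' hy₃ hm0 hd0, norm_div, hden, norm_mul, div_pow,
    mul_pow, div_mul_eq_mul_div, div_le_one (by positivity)]
  have n4 : ‖(4 : ℚ_[q])‖ ^ 2 ≤ 1 := pow_le_one₀ (norm_nonneg _) n4
  have hm3 : B ^ 3 ≤ ‖m‖ ^ 2 := by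
    rw [hm2]
    calc B ^ 3 = B * B * B := by ring
      _ ≤ ‖x‖ * ‖x'‖ * ‖x₃‖ :=
        mul_le_mul (mul_le_mul nx nx' hB0.le px.le) nx₃ hB0.le (by positivity)
  calc ‖(4 : ℚ_[q])‖ ^ 2 * ‖l‖ ^ 2 * B ^ 5 ≤ 1 * ‖l‖ ^ 2 * B ^ 5 := by
        apply mul_le_mul_of_nonneg_right _ (by positivity)
        exact mul_le_mul_of_nonneg_right n4 (by positivity)
    _ = (‖l‖ ^ 2 * B ^ 2) * B ^ 3 := by ring
    _ ≤ ‖m‖ ^ 2 * ‖m‖ ^ 2 := mul_le_mul hlm hm3 (by positivity) (by positivity)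
    _ = (‖m‖ ^ 2) ^ 2 := by ring

lemma zq_smul {B : ℝ} (hB : 1 < B) {V : (EF ℚ_[q]).Point} (hV : V ∈ EB B hB) (n : ℕ) :
    ‖zq (n • V) - (n : ℚ_[q]) * zq V‖ ^ 2 * B ^ 5 ≤ 1 := by
  have hB5 : 0 < B ^ 5 := by have : 0 < B := by linarith only [hB]
                             positivity
  induction n with
  | zero =>
    rw [zero_nsmul, zq_zero, Nat.cast_zero, zero_mul, sub_zero, norm_zero]
    norm_num
  | succ n ih =>
    have h1 := zq_add hB ((EB B hB).nsmul_mem hV n) hV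
    rw [← succ_nsmul] at h1
    rw [← le_div_iff₀ hB5] at ih h1 ⊢
    have e : zq ((n + 1) • V) - ((n + 1 : ℕ) : ℚ_[q]) * zq V =
        (zq ((n + 1) • V) - zq (n • V) - zq V) + (zq (n • V) - (n : ℚ_[q]) * zq V) := by
      push_cast; ring
    rw [e]
    exact sq_max h1 ih

/-- a norm larger than one is at least `q` -/
lemma q_le_norm {x : ℚ_[q]} (hx : 1 < ‖x‖) : (q : ℝ) ≤ ‖x‖ := by
  have hx0 : x ≠ 0 := ne_zero_of_large one_pos hx.le
  have hq1 : (1 : ℝ) < q := by exact_mod_cast hq.out.one_lt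
  rw [Padic.norm_eq_zpow_neg_valuation hx0] at hx ⊢
  have h1 : (0 : ℤ) < -x.valuation := by
    by_contra hcon
    push Not at hcon
    have := zpow_le_one_of_nonpos₀ hq1.le hcon
    linarith only [this, hx]
  calc (q : ℝ) = (q : ℝ) ^ (1 : ℤ) := by rw [zpow_one]
    _ ≤ _ := zpow_le_zpow_right₀ hq1.le (by omega)

lemma norm_prime_ge {r : ℕ} (hr : r.Prime) : (q : ℝ)⁻¹ ≤ ‖(r : ℚ_[q])‖ := by
  have hq1 : (1 : ℝ) < q := by exact_mod_cast hq.out.one_lt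
  by_cases h : q = r
  · subst h
    rw [Padic.norm_p]
  · have h1 : ‖(r : ℚ_[q])‖ = 1 := by
      rw [Padic.norm_natCast_eq_one_iff]
      exact (Nat.coprime_primes hq.out hr).2 h
    rw [h1]
    exact inv_le_one_of_one_le₀ hq1.le

/-- in the kernel of reduction, multiplication by a prime `r` divides the size of the first
coordinate exactly by `|r| ^ 2` -/
theorem norm_smul_prime' {V : (EF ℚ_[q]).Point} {x x' : ℚ_[q]} (hV : HX V x) (hx : 1 < ‖x‖)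
    {r : ℕ} (hr : r.Prime) (h' : HX (r • V) x') : ‖x'‖ * ‖(r : ℚ_[q])‖ ^ 2 = ‖x‖ := by
  have hB5 : 0 < ‖x‖ ^ 5 := by have : 0 < ‖x‖ := by linarith only [hx]
                               positivity
  have hx0 : 0 < ‖x‖ := by linarith only [hx]
  have hq1 : (1 : ℝ) < q := by exact_mod_cast hq.out.one_lt
  have hq0 : (0 : ℝ) < q := by linarith only [hq1]
  have hmem : V ∈ EB ‖x‖ hx := (mem_EB_of_HX hx hV).2 le_rfl
  have h1 := zq_smul hx hmem r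
  have h2 := norm_zq hV hx
  have hx' : ‖x‖ ≤ ‖x'‖ := (EB ‖x‖ hx).nsmul_mem hmem r x' h'
  have h3 := norm_zq h' (hx.trans_le hx')
  have hx'0 : 0 < ‖x'‖ := hx0.trans_le hx'
  have hqx := q_le_norm hx
  have hr1 := norm_prime_ge (q := q) hr
  have hr0 : 0 < ‖(r : ℚ_[q])‖ := lt_of_lt_of_le (by positivity) hr1
  -- the main term is larger than the error
  have h4 : ‖(r : ℚ_[q]) * zq V‖ ^ 2 * ‖x‖ = ‖(r : ℚ_[q])‖ ^ 2 := by
    rw [norm_mul, mul_pow, mul_assoc, h2, mul_one]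
  have h5 : 1 < ‖(r : ℚ_[q]) * zq V‖ ^ 2 * ‖x‖ ^ 5 := by
    have e : ‖(r : ℚ_[q]) * zq V‖ ^ 2 * ‖x‖ ^ 5 = ‖(r : ℚ_[q])‖ ^ 2 * ‖x‖ ^ 4 := by
      rw [← h4]; ring
    rw [e]
    have k1 : ((q : ℝ)⁻¹) ^ 2 ≤ ‖(r : ℚ_[q])‖ ^ 2 := pow_le_pow_left₀ (by positivity) hr1 2
    have k2 : (q : ℝ) ^ 4 ≤ ‖x‖ ^ 4 := pow_le_pow_left₀ (by positivity) hqx 4
    have k3 : ((q : ℝ)⁻¹) ^ 2 * (q : ℝ) ^ 4 = (q : ℝ) ^ 2 := by field_simp
    have k4 : (1 : ℝ) < (q : ℝ) ^ 2 := one_lt_pow₀ hq1 (by norm_num)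
    calc (1 : ℝ) < (q : ℝ) ^ 2 := k4
      _ = ((q : ℝ)⁻¹) ^ 2 * (q : ℝ) ^ 4 := k3.symm
      _ ≤ _ := mul_le_mul k1 k2 (by positivity) (by positivity)
  have h6 : ‖zq (r • V) - (r : ℚ_[q]) * zq V‖ < ‖(r : ℚ_[q]) * zq V‖ := by
    by_contra hcon
    push Not at hcon
    have h7 := pow_le_pow_left₀ (norm_nonneg _) hcon 2
    have h8 := mul_le_mul_of_nonneg_right h7 hB5.le
    linarith only [h8, h5, h1]
  have h7 : ‖zq (r • V)‖ = ‖(r : ℚ_[q]) * zq V‖ := by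
    have e : zq (r • V) = (r : ℚ_[q]) * zq V + (zq (r • V) - (r : ℚ_[q]) * zq V) := by ring
    rw [e]
    exact nadd_left h6
  rw [h7] at h3
  have h9 : ‖(r : ℚ_[q]) * zq V‖ ^ 2 * ‖x‖ * ‖x'‖ = ‖x‖ := by
    calc _ = (‖(r : ℚ_[q]) * zq V‖ ^ 2 * ‖x'‖) * ‖x‖ := by ring
      _ = _ := by rw [h3, one_mul]
  rw [h4] at h9
  linarith only [h9]

theorem norm_smul_prime {V : (EF ℚ_[q]).Point} {x x' : ℚ_[q]} (hV : HX V x) (hx : 1 < ‖x‖)
    (hne : ∀ m : ℕ, 1 ≤ m → m • V ≠ 0) {r : ℕ} (hr : r.Prime) (h' : HX (r • V) x') :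
    ‖x'‖ * ‖(r : ℚ_[q])‖ ^ 2 = ‖x‖ := norm_smul_prime' hV hx hr h'

/-- a prime multiple of a point of the kernel of reduction is not zero -/
theorem smul_prime_ne_zero {V : (EF ℚ_[q]).Point} {x : ℚ_[q]} (hV : HX V x) (hx : 1 < ‖x‖)
    {r : ℕ} (hr : r.Prime) : r • V ≠ 0 := by
  intro h0
  have hx0 : 0 < ‖x‖ := by linarith only [hx]
  have hq1 : (1 : ℝ) < q := by exact_mod_cast hq.out.one_lt
  have hmem : V ∈ EB ‖x‖ hx := (mem_EB_of_HX hx hV).2 le_rfl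
  have h1 := zq_smul hx hmem r
  have h2 := norm_zq hV hx
  have hqx := q_le_norm hx
  have hr1 := norm_prime_ge (q := q) hr
  rw [h0, zq_zero, zero_sub, norm_neg, norm_mul, mul_pow] at h1
  have e : ‖(r : ℚ_[q])‖ ^ 2 * ‖zq V‖ ^ 2 * ‖x‖ ^ 5 = ‖(r : ℚ_[q])‖ ^ 2 * ‖x‖ ^ 4 := by
    calc _ = ‖(r : ℚ_[q])‖ ^ 2 * (‖zq V‖ ^ 2 * ‖x‖) * ‖x‖ ^ 4 := by ring
      _ = _ := by rw [h2, mul_one]
  rw [e] at h1
  have k1 : ((q : ℝ)⁻¹) ^ 2 ≤ ‖(r : ℚ_[q])‖ ^ 2 := pow_le_pow_left₀ (by positivity) hr1 2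
  have k2 : (q : ℝ) ^ 4 ≤ ‖x‖ ^ 4 := pow_le_pow_left₀ (by positivity) hqx 4
  have k3 : ((q : ℝ)⁻¹) ^ 2 * (q : ℝ) ^ 4 = (q : ℝ) ^ 2 := by field_simp
  have k4 : (1 : ℝ) < (q : ℝ) ^ 2 := one_lt_pow₀ hq1 (by norm_num)
  have k5 := mul_le_mul k1 k2 (by positivity) (by positivity)
  linarith only [k3, k4, k5, h1]

end mult

end Vale.Agent.P027.R4.H297
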